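import Vale.Agent.P054.T2.H580.FiltLo

/-!
# P054 / T2: (G2) and [G3] for a general filtration
-/

open MvPolynomial Module

namespace Vale.Agent.P054.T2.H580

open H441 (resA resA_apply core exists_avoid reg_iInf)

variable {σ K : Type*} [Field K]

namespace IsFilt

variable {V : ℕ → Submodule K (MvPolynomial σ K)} (hV : IsFilt V)
include hV

theorem rkF_mono_deg (Y : Finset (σ → K)) {a b : ℕ} (h : a ≤ b) : rkF V Y a ≤ rkF V Y b := by
  have := hV.fin b
  exact Submodule.finrank_mono (Submodule.map_mono (hV.mono h))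

theorem rkF_mono_set {Y Z : Finset (σ → K)} (h : Y ⊆ Z) (n : ℕ) : rkF V Y n ≤ rkF V Z n := by
  classical
  have := hV.fin n
  let r : (Z → K) →ₗ[K] (Y → K) := LinearMap.pi fun p => LinearMap.proj ⟨p, h p.2⟩
  have h1 : (V n).map (resA Y).toLinearMap = ((V n).map (resA Z).toLinearMap).map r := by
    rw [← Submodule.map_comp]
    congr 1
  unfold rkF
  rw [h1]
  exact Submodule.finrank_map_le r _

omit hV in
theorem _root_.Vale.Agent.P054.T2.H580.rkF_le_card (V : ℕ → Submodule K (MvPolynomial σ K))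
    (Y : Finset (σ → K)) (n : ℕ) : rkF V Y n ≤ Y.card := by
  unfold rkF
  refine (Submodule.finrank_le _).trans ?_
  simp

/-- `I` vanishes on `Y` -/
theorem rkF_le_hilbF (Y : Finset (σ → K)) (I : Ideal (MvPolynomial σ K))
    (hI : ∀ F ∈ I, ∀ p ∈ Y, eval p F = 0) (n : ℕ) : rkF V Y n ≤ hilbF V I n := by
  classical
  have hfin := hV.finite_map I n
  have hker : ∀ a ∈ I, resA Y a = 0 := by
    intro a ha
    ext p
    rw [resA_apply]
    exact hI a ha p p.2
  let ψ : (MvPolynomial σ K ⧸ I) →ₐ[K] (Y → K) := Ideal.Quotient.liftₐ I (resA Y) hker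
  have hmap : (V n).map (resA Y).toLinearMap =
      ((V n).map (Ideal.Quotient.mkₐ K I).toLinearMap).map ψ.toLinearMap := by
    rw [← Submodule.map_comp]
    congr 1
  unfold rkF hilbF
  rw [hmap]
  exact Submodule.finrank_map_le _ _

/-- (1) of [G3]. -/
theorem rkF_add_hilbF_le (Y : Finset (σ → K)) (I : Ideal (MvPolynomial σ K))
    (hI : ∀ F ∈ I, ∀ p ∈ Y, eval p F = 0) {T n : ℕ} (hTn : T ≤ n)
    (f : MvPolynomial σ K) (hf : f ∈ V T) (hfY : ∀ p ∈ Y, eval p f = 0)
    (hreg : ∀ g, f * g ∈ I → g ∈ I) :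
    rkF V Y n + hilbF V I (n - T) ≤ hilbF V I n := by
  classical
  have hfin := hV.finite_map I n
  have hker : ∀ a ∈ I, resA Y a = 0 := by
    intro a ha
    ext p
    rw [resA_apply]
    exact hI a ha p p.2
  let ψ : (MvPolynomial σ K ⧸ I) →ₐ[K] (Y → K) := Ideal.Quotient.liftₐ I (resA Y) hker
  let m : (MvPolynomial σ K ⧸ I) →ₗ[K] (MvPolynomial σ K ⧸ I) :=
    LinearMap.mulLeft K (Ideal.Quotient.mkₐ K I f)
  have hm : Function.Injective m := by
    rw [injective_iff_map_eq_zero]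
    intro x hx
    obtain ⟨g, rfl⟩ := Ideal.Quotient.mkₐ_surjective K I x
    have h1 : Ideal.Quotient.mkₐ K I (f * g) = 0 := by
      rw [map_mul]; exact hx
    rw [Ideal.Quotient.mkₐ_eq_mk, Ideal.Quotient.eq_zero_iff_mem] at h1
    rw [Ideal.Quotient.mkₐ_eq_mk, Ideal.Quotient.eq_zero_iff_mem]
    exact hreg g h1
  have hmap : (V n).map (resA Y).toLinearMap =
      ((V n).map (Ideal.Quotient.mkₐ K I).toLinearMap).map ψ.toLinearMap := by
    rw [← Submodule.map_comp]
    congr 1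
  have := core ((V n).map (Ideal.Quotient.mkₐ K I).toLinearMap)
    ((V (n - T)).map (Ideal.Quotient.mkₐ K I).toLinearMap) m hm
    (by
      rintro _ ⟨_, ⟨g, hg, rfl⟩, rfl⟩
      refine ⟨f * g, ?_, ?_⟩
      · have := hV.mul hf hg
        rwa [Nat.add_sub_cancel' hTn] at this
      · simp [m])
    ψ.toLinearMap
    (by
      rintro _ ⟨g, hg, rfl⟩
      have h2 : m ((Ideal.Quotient.mkₐ K I).toLinearMap g) =
          Ideal.Quotient.mkₐ K I (f * g) := by simp [m]
      rw [h2]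
      show ψ (Ideal.Quotient.mkₐ K I (f * g)) = 0
      have h3 : ψ (Ideal.Quotient.mkₐ K I (f * g)) = resA Y (f * g) := rfl
      rw [h3]
      ext p
      rw [resA_apply, map_mul, hfY p p.2, zero_mul]
      rfl)
  unfold rkF hilbF
  rw [hmap]
  exact this

/-- (2) of [G3]: telescoping. -/
theorem mul_rkF_le (Y : Finset (σ → K)) (I : Ideal (MvPolynomial σ K))
    (hI : ∀ F ∈ I, ∀ p ∈ Y, eval p F = 0) {T : ℕ}
    (f : MvPolynomial σ K) (hf : f ∈ V T) (hfY : ∀ p ∈ Y, eval p f = 0)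
    (hreg : ∀ g, f * g ∈ I → g ∈ I) (T' J : ℕ) :
    J * rkF V Y T' + hilbF V I T' ≤ hilbF V I (T' + J * T) := by
  induction J with
  | zero => simp
  | succ J ih =>
    have h1 := hV.rkF_add_hilbF_le Y I hI (T := T) (n := T' + (J + 1) * T)
      (by nlinarith [Nat.zero_le T']) f hf hfY hreg
    have h2 : T' + (J + 1) * T - T = T' + J * T := by
      rw [Nat.succ_mul]; omega
    rw [h2] at h1
    have h3 : rkF V Y T' ≤ rkF V Y (T' + (J + 1) * T) := hV.rkF_mono_deg Y (Nat.le_add_right _ _)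
    rw [Nat.succ_mul]
    omega

/-- **[G3].** -/
theorem g3 [Infinite K] (X : Finset (σ → K))
    (P : (σ → K) → Ideal (MvPolynomial σ K)) (hP : ∀ p ∈ X, (P p).IsPrime)
    (hPe : ∀ p ∈ X, ∀ F ∈ P p, eval p F = 0) {T : ℕ}
    (W : Submodule K (MvPolynomial σ K)) (hWT : W ≤ V T)
    (hWX : ∀ F ∈ W, ∀ p ∈ X, eval p F = 0)
    (Y : Finset (σ → K)) (hYX : Y ⊆ X) (hYW : ∀ p ∈ Y, ∃ F ∈ W, F ∉ P p) (T' J : ℕ) :
    J * rkF V Y T' + hilbF V (⨅ p ∈ Y, P p) T' ≤ hilbF V (⨅ p ∈ Y, P p) (T' + J * T) := by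
  obtain ⟨f, hfW, hfP⟩ := exists_avoid W Y P hYW
  refine hV.mul_rkF_le Y _ ?_ f (hWT hfW) (fun p hp => hWX f hfW p (hYX hp)) ?_ T' J
  · intro F hF p hp
    simp only [Ideal.mem_iInf] at hF
    exact hPe p (hYX hp) F (hF p hp)
  · exact reg_iInf Y P (fun p hp => hP p (hYX hp)) f hfP

/-- rank of a union -/
theorem rkF_union_le [DecidableEq (σ → K)] (Y Z : Finset (σ → K)) (n : ℕ) :
    rkF V (Y ∪ Z) n ≤ rkF V Y n + rkF V Z n := by
  classical
  have hfin := hV.fin n
  let r : (↥(Y ∪ Z) → K) →ₗ[K] (Y → K) × (Z → K) :=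
    LinearMap.prod (LinearMap.pi fun p => LinearMap.proj ⟨p, Finset.mem_union_left _ p.2⟩)
      (LinearMap.pi fun p => LinearMap.proj ⟨p, Finset.mem_union_right _ p.2⟩)
  have hr : Function.Injective r := by
    rw [injective_iff_map_eq_zero]
    intro x hx
    have h1 : ∀ p : Y, x ⟨p, Finset.mem_union_left _ p.2⟩ = 0 := fun p =>
      congrFun (congrArg Prod.fst hx) p
    have h2 : ∀ p : Z, x ⟨p, Finset.mem_union_right _ p.2⟩ = 0 := fun p =>
      congrFun (congrArg Prod.snd hx) p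
    ext p
    rcases Finset.mem_union.1 p.2 with h | h
    · exact h1 ⟨p, h⟩
    · exact h2 ⟨p, h⟩
  have h1 : ((V n).map (resA (Y ∪ Z)).toLinearMap).map r ≤
      ((V n).map (resA Y).toLinearMap).prod ((V n).map (resA Z).toLinearMap) := by
    rintro _ ⟨_, ⟨F, hF, rfl⟩, rfl⟩
    exact ⟨⟨F, hF, rfl⟩, ⟨F, hF, rfl⟩⟩
  have h2 := Submodule.finrank_mono h1
  have h3 : finrank K (((V n).map (resA (Y ∪ Z)).toLinearMap).map r) = rkF V (Y ∪ Z) n :=
    (LinearEquiv.finrank_eq (Submodule.equivMapOfInjective r hr _)).symm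
  have h4 : finrank K (((V n).map (resA Y).toLinearMap).prod
        ((V n).map (resA Z).toLinearMap) :
        Submodule K ((Y → K) × (Z → K))) = rkF V Y n + rkF V Z n := by
    let e : (((V n).map (resA Y).toLinearMap).prod
        ((V n).map (resA Z).toLinearMap)) ≃ₗ[K]
        ((V n).map (resA Y).toLinearMap) × ((V n).map (resA Z).toLinearMap) :=
      { toFun := fun x => (⟨x.1.1, x.2.1⟩, ⟨x.1.2, x.2.2⟩)
        invFun := fun x => ⟨(x.1.1, x.2.1), x.1.2, x.2.2⟩
        left_inv := fun _ => rfl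
        right_inv := fun _ => rfl
        map_add' := fun _ _ => rfl
        map_smul' := fun _ _ => rfl }
    rw [e.finrank_eq]
    exact finrank_prod
  omega

theorem rkF_biUnion_le [DecidableEq (σ → K)] {ι : Type*}
    (A : Finset ι) (Y : ι → Finset (σ → K)) (n : ℕ) :
    rkF V (A.biUnion Y) n ≤ ∑ a ∈ A, rkF V (Y a) n := by
  classical
  induction A using Finset.induction_on with
  | empty =>
    have := rkF_le_card V (∅ : Finset (σ → K)) n
    simp only [Finset.biUnion_empty, Finset.sum_empty]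
    simpa using this
  | insert a A ha ih =>
    rw [Finset.sum_insert ha]
    have h1 : (insert a A).biUnion Y = Y a ∪ A.biUnion Y := Finset.biUnion_insert
    rw [h1]
    exact (hV.rkF_union_le _ _ _).trans (Nat.add_le_add_left ih _)

/-- **[G3] for a family.** -/
theorem g3_family [DecidableEq (σ → K)] {ι : Type*} (A : Finset ι)
    (P : ι → Ideal (MvPolynomial σ K)) (hP : ∀ a ∈ A, (P a).IsPrime)
    (Y : ι → Finset (σ → K)) (hPe : ∀ a ∈ A, ∀ p ∈ Y a, ∀ F ∈ P a, eval p F = 0) {T : ℕ}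
    (f : ι → MvPolynomial σ K) (hfT : ∀ a ∈ A, f a ∈ V T)
    (hfP : ∀ a ∈ A, f a ∉ P a) (hfY : ∀ a ∈ A, ∀ p ∈ Y a, eval p (f a) = 0) (T' J : ℕ) :
    J * rkF V (A.biUnion Y) T' + ∑ a ∈ A, hilbF V (P a) T' ≤
      ∑ a ∈ A, hilbF V (P a) (T' + J * T) := by
  have h1 : ∀ a ∈ A, J * rkF V (Y a) T' + hilbF V (P a) T' ≤ hilbF V (P a) (T' + J * T) := by
    intro a ha
    refine hV.mul_rkF_le (Y a) (P a) ?_ (f a) (hfT a ha) (hfY a ha) ?_ T' J
    · intro F hF p hp
      exact hPe a ha p hp F hF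
    · intro g hg
      exact ((hP a ha).mem_or_mem hg).resolve_left (hfP a ha)
  calc J * rkF V (A.biUnion Y) T' + ∑ a ∈ A, hilbF V (P a) T'
      ≤ J * ∑ a ∈ A, rkF V (Y a) T' + ∑ a ∈ A, hilbF V (P a) T' :=
        Nat.add_le_add_right (Nat.mul_le_mul_left _ (hV.rkF_biUnion_le A Y T')) _
    _ = ∑ a ∈ A, (J * rkF V (Y a) T' + hilbF V (P a) T') := by
        rw [Finset.mul_sum, Finset.sum_add_distrib]
    _ ≤ _ := Finset.sum_le_sum h1

/-- **(G2)** additivity over pairwise incomparable primes -/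
theorem additive {w₀ : ℕ} (hX : ∀ i, (X i : MvPolynomial σ K) ∈ V w₀) {ι : Type*} [Fintype ι]
    (P : ι → Ideal (MvPolynomial σ K))
    (hP : ∀ i, (P i).IsPrime) (hinc : ∀ i j, i ≠ j → ¬ P i ≤ P j) :
    ∃ a : ℕ, ∀ n, ∑ i, hilbF V (P i) n ≤ hilbF V (⨅ i, P i) (n + a) := by
  classical
  -- separating elements
  have hg : ∀ i, ∃ g : MvPolynomial σ K, g ∉ P i ∧ ∀ j, j ≠ i → g ∈ P j := by
    intro i
    have h1 : ¬ (Finset.univ.erase i).inf P ≤ P i := by
      intro hle
      rw [Ideal.IsPrime.inf_le' (hP i)] at hle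
      obtain ⟨j, hj, hle⟩ := hle
      exact hinc j i (Finset.ne_of_mem_erase hj) hle
    obtain ⟨g, hg1, hg2⟩ := SetLike.not_le_iff_exists.1 h1
    refine ⟨g, hg2, fun j hj => ?_⟩
    have : (Finset.univ.erase i).inf P ≤ P j :=
      Finset.inf_le (Finset.mem_erase.2 ⟨hj, Finset.mem_univ _⟩)
    exact this hg1
  choose g hgi hgj using hg
  refine ⟨∑ i, (g i).totalDegree * w₀, fun n => ?_⟩
  set b := ∑ i, (g i).totalDegree * w₀ with hb
  have hfin0 := hV.finite_map (⨅ i, P i) (n + b)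
  have hfinn := hV.fin n
  have hle : ∀ i, (⨅ i, P i) ≤ P i := fun i => iInf_le _ i
  let Φ : (MvPolynomial σ K ⧸ (⨅ i, P i)) →ₗ[K] (∀ i, MvPolynomial σ K ⧸ P i) :=
    LinearMap.pi fun i => (Ideal.Quotient.factorₐ K (hle i)).toLinearMap
  let W : ∀ i, Submodule K (MvPolynomial σ K ⧸ P i) := fun i =>
    (V n).map (Ideal.Quotient.mkₐ K (P i)).toLinearMap
  let Θ : (∀ i, W i) →ₗ[K] (∀ i, MvPolynomial σ K ⧸ P i) :=
    LinearMap.pi fun i => (LinearMap.mulLeft K (Ideal.Quotient.mk (P i) (g i))) ∘ₗ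
      (W i).subtype ∘ₗ LinearMap.proj i
  have hΘ : ∀ w i, Θ w i = Ideal.Quotient.mk (P i) (g i) * (w i : MvPolynomial σ K ⧸ P i) := by
    intro w i
    rfl
  have hinj : Function.Injective Θ := by
    rw [injective_iff_map_eq_zero]
    intro w hw
    funext i
    have h1 := congrFun hw i
    rw [hΘ] at h1
    obtain ⟨G, hG⟩ := Ideal.Quotient.mk_surjective (w i : MvPolynomial σ K ⧸ P i)
    rw [← hG] at h1
    rw [← map_mul, Pi.zero_apply, Ideal.Quotient.eq_zero_iff_mem] at h1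
    have h2 := ((hP i).mem_or_mem h1).resolve_left (hgi i)
    apply Subtype.ext
    rw [← hG]
    exact Ideal.Quotient.eq_zero_iff_mem.2 h2
  have hrange : LinearMap.range Θ ≤
      ((V (n + b)).map (Ideal.Quotient.mkₐ K (⨅ i, P i)).toLinearMap).map Φ := by
    rintro _ ⟨w, rfl⟩
    choose G hG hGw using fun i => (w i).2
    refine ⟨Ideal.Quotient.mk _ (∑ i, G i * g i), ⟨_, ?_, rfl⟩, ?_⟩
    · refine Submodule.sum_mem _ fun i _ => ?_
      refine hV.mul (hG i) (hV.mono ?_ (hV.exhaust hX (g i)))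
      exact Finset.single_le_sum (f := fun i => (g i).totalDegree * w₀)
        (fun _ _ => Nat.zero_le _) (Finset.mem_univ i)
    · funext j
      rw [hΘ]
      show Ideal.Quotient.mk (P j) (∑ i, G i * g i) = _
      have h1 : (w j : MvPolynomial σ K ⧸ P j) = Ideal.Quotient.mk (P j) (G j) := (hGw j).symm
      rw [h1, ← map_mul, Ideal.Quotient.eq, ← Finset.add_sum_erase _ _ (Finset.mem_univ j)]
      have h2 : G j * g j + ∑ i ∈ Finset.univ.erase j, G i * g i - g j * G j =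
          ∑ i ∈ Finset.univ.erase j, G i * g i := by ring
      rw [h2]
      refine Ideal.sum_mem _ fun i hi => Ideal.mul_mem_left _ _ ?_
      exact hgj i j (Finset.ne_of_mem_erase hi).symm
  have hfree : ∀ i, Module.Free K (W i) := fun i => Module.Free.of_divisionRing K (W i)
  have hfin : ∀ i, Module.Finite K (W i) := fun i => inferInstance
  have h1 : ∑ i, hilbF V (P i) n = Module.finrank K (∀ i, W i) :=
    (Module.finrank_pi_fintype K (M := fun i => W i)).symm
  rw [h1, ← LinearMap.finrank_range_of_inj hinj]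
  exact (Submodule.finrank_mono hrange).trans (Submodule.finrank_map_le _ _)

end IsFilt

end Vale.Agent.P054.T2.H580
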