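import Vale.Agent.P054.T2.H580.Cont

/-!
# P054 / T2: Hilbert functions for a general multiplicative filtration

`V : ℕ → Submodule k R`, `hilbF V I n` = dimension of `V n` modulo the ideal `I`.
Instances: total degree, weighted degree (`Vw w`), used for bidegrees.
-/

open MvPolynomial Finset Module

namespace Vale.Agent.P054.T2.H580

variable {k R : Type*} [Field k] [CommRing R] [Algebra k R]

/-- multiplicative filtration by finite-dimensional subspaces -/
structure IsFilt (V : ℕ → Submodule k R) : Prop where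
  mono : Monotone V
  one : (1 : R) ∈ V 0
  mul : ∀ {a b : ℕ} {x y : R}, x ∈ V a → y ∈ V b → x * y ∈ V (a + b)
  fin : ∀ n, Module.Finite k (V n)

/-- dimension of `V n` modulo `I` -/
noncomputable def hilbF (V : ℕ → Submodule k R) (I : Ideal R) (n : ℕ) : ℕ :=
  finrank k ((V n).map (Ideal.Quotient.mkₐ k I).toLinearMap)

theorem mapF_factor {I J : Ideal R} (h : I ≤ J) (V : Submodule k R) :
    (V.map (Ideal.Quotient.mkₐ k I).toLinearMap).map
      (Ideal.Quotient.factorₐ k h).toLinearMap = V.map (Ideal.Quotient.mkₐ k J).toLinearMap := by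
  rw [← Submodule.map_comp]
  congr 1

namespace IsFilt

variable {V : ℕ → Submodule k R} (hV : IsFilt V)
include hV

theorem pow_mem {a : ℕ} {x : R} (hx : x ∈ V a) (n : ℕ) : x ^ n ∈ V (n * a) := by
  induction n with
  | zero => simpa using hV.one
  | succ n ih =>
    rw [pow_succ, show (n + 1) * a = n * a + a by ring]
    exact hV.mul ih hx

theorem finite_map (I : Ideal R) (n : ℕ) :
    Module.Finite k ((V n).map (Ideal.Quotient.mkₐ k I).toLinearMap) := by
  have := hV.fin n
  infer_instance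

theorem hilbF_le_finrank (I : Ideal R) (n : ℕ) : hilbF V I n ≤ finrank k (V n) := by
  have := hV.fin n
  exact Submodule.finrank_map_le _ _

theorem hilbF_mono (I : Ideal R) {m n : ℕ} (h : m ≤ n) : hilbF V I m ≤ hilbF V I n := by
  have := hV.finite_map I n
  exact Submodule.finrank_mono (Submodule.map_mono (hV.mono h))

theorem hilbF_anti {I J : Ideal R} (h : I ≤ J) (n : ℕ) : hilbF V J n ≤ hilbF V I n := by
  unfold hilbF
  rw [← mapF_factor h]
  have := hV.finite_map I n
  exact Submodule.finrank_map_le _ _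

/-- **one step**: `f ∈ V d ∩ J`, a nonzerodivisor mod `I ≤ J`. -/
theorem hilbF_step {I J : Ideal R} (hIJ : I ≤ J) (f : R)
    (hfJ : f ∈ J) (hf : ∀ g, f * g ∈ I → g ∈ I) (d : ℕ) (hd : f ∈ V d) (n : ℕ)
    (hn : d ≤ n) : hilbF V J n + hilbF V I (n - d) ≤ hilbF V I n := by
  have hfinA := hV.finite_map I n
  have hfinA' := hV.finite_map I (n - d)
  set A := (V n).map (Ideal.Quotient.mkₐ k I).toLinearMap with hA
  set A' := (V (n - d)).map (Ideal.Quotient.mkₐ k I).toLinearMap with hA'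
  let φ : (R ⧸ I) →ₗ[k] (R ⧸ J) := (Ideal.Quotient.factorₐ k hIJ).toLinearMap
  let μ : (R ⧸ I) →ₗ[k] (R ⧸ I) := LinearMap.mulLeft k (Ideal.Quotient.mk I f)
  have hμ : Function.Injective μ := by
    rw [injective_iff_map_eq_zero]
    intro x hx
    obtain ⟨g, rfl⟩ := Ideal.Quotient.mk_surjective x
    have h1 : Ideal.Quotient.mk I (f * g) = 0 := by
      rw [map_mul]; exact hx
    exact Ideal.Quotient.eq_zero_iff_mem.2 (hf g (Ideal.Quotient.eq_zero_iff_mem.1 h1))
  have hK1 : A'.map μ ≤ A := by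
    rintro _ ⟨x, ⟨g, hg, rfl⟩, rfl⟩
    refine ⟨f * g, ?_, ?_⟩
    · have := hV.mul hd hg
      rwa [show d + (n - d) = n by omega] at this
    · change Ideal.Quotient.mk I (f * g) = Ideal.Quotient.mk I f * Ideal.Quotient.mk I g
      exact map_mul _ _ _
  have hK2 : A'.map μ ≤ LinearMap.ker φ := by
    rintro _ ⟨x, ⟨g, hg, rfl⟩, rfl⟩
    rw [LinearMap.mem_ker]
    change (Ideal.Quotient.factorₐ k hIJ) (Ideal.Quotient.mk I f * Ideal.Quotient.mk I g) = 0
    rw [map_mul]
    have : (Ideal.Quotient.factorₐ k hIJ) (Ideal.Quotient.mk I f) = 0 :=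
      Ideal.Quotient.eq_zero_iff_mem.2 hfJ
    rw [this, zero_mul]
  have h1 : finrank k (A'.map μ) = finrank k A' :=
    (Submodule.equivMapOfInjective μ hμ A').finrank_eq.symm
  let ψ : A →ₗ[k] (R ⧸ J) := φ.domRestrict A
  have h2 := LinearMap.finrank_range_add_finrank_ker ψ
  have h3 : finrank k (LinearMap.range ψ) = hilbF V J n := by
    have : LinearMap.range ψ = A.map φ := by
      ext x
      constructor
      · rintro ⟨y, rfl⟩; exact ⟨y.1, y.2, rfl⟩
      · rintro ⟨y, hy, rfl⟩; exact ⟨⟨y, hy⟩, rfl⟩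
    rw [this, hA, mapF_factor hIJ]
    rfl
  have h4 : finrank k (A'.map μ) ≤ finrank k (LinearMap.ker ψ) := by
    have h5 : A'.map μ ≤ (LinearMap.ker ψ).map A.subtype := by
      intro x hx
      refine ⟨⟨x, hK1 hx⟩, ?_, rfl⟩
      exact LinearMap.mem_ker.2 (LinearMap.mem_ker.1 (hK2 hx))
    exact (Submodule.finrank_mono h5).trans (Submodule.finrank_map_le _ _)
  change hilbF V J n + finrank k A' ≤ finrank k A
  omega

theorem hilbF_mul_le {I J : Ideal R} (hIJ : I ≤ J) (f : R)
    (hfJ : f ∈ J) (hf : ∀ g, f * g ∈ I → g ∈ I) (d : ℕ) (hd : f ∈ V d) (n i : ℕ) :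
    (i + 1) * hilbF V J n ≤ hilbF V I (n + i * d) := by
  induction i with
  | zero => simpa using hV.hilbF_anti hIJ n
  | succ i ih =>
    have h1 := hV.hilbF_step hIJ f hfJ hf d hd (n + (i + 1) * d) (by nlinarith)
    have h2 : n + (i + 1) * d - d = n + i * d := by
      have : (i + 1) * d = i * d + d := by ring
      omega
    rw [h2] at h1
    have h3 := hV.hilbF_mono J (show n ≤ n + (i + 1) * d by omega)
    calc (i + 1 + 1) * hilbF V J n = hilbF V J n + (i + 1) * hilbF V J n := by ring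
      _ ≤ hilbF V J (n + (i + 1) * d) + hilbF V I (n + i * d) := Nat.add_le_add h3 ih
      _ ≤ _ := h1

/-- `(T + 1) * hilbF V J n ≤ d * hilbF V I (n + T)` -/
theorem hilbF_step' {I J : Ideal R} (hIJ : I ≤ J) (f : R)
    (hfJ : f ∈ J) (hf : ∀ g, f * g ∈ I → g ∈ I) (d : ℕ) (hd1 : 1 ≤ d) (hd : f ∈ V d)
    (n T : ℕ) : (T + 1) * hilbF V J n ≤ d * hilbF V I (n + T) := by
  set i := T / d with hi
  have h1 : T < d * (i + 1) := Nat.lt_mul_div_succ T (by omega)
  have h2 : i * d ≤ T := Nat.div_mul_le_self T d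
  calc (T + 1) * hilbF V J n ≤ (d * (i + 1)) * hilbF V J n := Nat.mul_le_mul_right _ h1
    _ = d * ((i + 1) * hilbF V J n) := by ring
    _ ≤ d * hilbF V I (n + i * d) := Nat.mul_le_mul_left _ (hV.hilbF_mul_le hIJ f hfJ hf d hd n i)
    _ ≤ d * hilbF V I (n + T) := Nat.mul_le_mul_left _ (hV.hilbF_mono I (by omega))

/-- chain of ideals -/
theorem hilbF_chain (I : ℕ → Ideal R) (c : ℕ) (hI : ∀ j < c, I j ≤ I (j + 1))
    (f : ℕ → R) (hfI : ∀ j < c, f j ∈ I (j + 1))
    (hf : ∀ j < c, ∀ g, f j * g ∈ I j → g ∈ I j) (d : ℕ → ℕ) (hd1 : ∀ j < c, 1 ≤ d j)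
    (hd : ∀ j < c, f j ∈ V (d j)) (n T : ℕ) :
    (T + 1) ^ c * hilbF V (I c) n ≤ (∏ j ∈ range c, d j) * hilbF V (I 0) (n + c * T) := by
  induction c generalizing n with
  | zero => simp
  | succ c ih =>
    have h1 := hV.hilbF_step' (hI c (by omega)) (f c) (hfI c (by omega)) (hf c (by omega)) (d c)
      (hd1 c (by omega)) (hd c (by omega)) n T
    have h2 := ih (fun j hj => hI j (by omega)) (fun j hj => hfI j (by omega))
      (fun j hj => hf j (by omega)) (fun j hj => hd1 j (by omega)) (fun j hj => hd j (by omega))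
      (n + T)
    rw [Finset.prod_range_succ]
    calc (T + 1) ^ (c + 1) * hilbF V (I (c + 1)) n
        = (T + 1) ^ c * ((T + 1) * hilbF V (I (c + 1)) n) := by ring
      _ ≤ (T + 1) ^ c * (d c * hilbF V (I c) (n + T)) := Nat.mul_le_mul_left _ h1
      _ = d c * ((T + 1) ^ c * hilbF V (I c) (n + T)) := by ring
      _ ≤ d c * ((∏ j ∈ range c, d j) * hilbF V (I 0) (n + T + c * T)) :=
          Nat.mul_le_mul_left _ h2
      _ = (∏ j ∈ range c, d j) * d c * hilbF V (I 0) (n + (c + 1) * T) := by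
          rw [show n + T + c * T = n + (c + 1) * T by ring]; ring

omit hV in
/-- an element outside all the primes is a nonzerodivisor modulo their intersection -/
theorem _root_.Vale.Agent.P054.T2.H580.nzdF_iInf {ι : Type*} (G : Finset ι) (P : ι → Ideal R)
    (hP : ∀ i ∈ G, (P i).IsPrime) (f : R) (hf : ∀ i ∈ G, f ∉ P i) :
    ∀ g, f * g ∈ (⨅ i ∈ G, P i) → g ∈ (⨅ i ∈ G, P i) := by
  intro g hg
  simp only [Submodule.mem_iInf] at hg ⊢
  intro i hi
  exact ((hP i hi).mem_or_mem (hg i hi)).resolve_left (hf i hi)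

/-- **(U) for germs** -/
theorem hilbF_primes {ι : Type*} (G : Finset ι) (P : ℕ → ι → Ideal R) (c : ℕ)
    (hP : ∀ j < c, ∀ i ∈ G, (P j i).IsPrime) (hmono : ∀ j < c, ∀ i ∈ G, P j i ≤ P (j + 1) i)
    (f : ℕ → R) (hf : ∀ j < c, ∀ i ∈ G, f j ∈ P (j + 1) i)
    (hf' : ∀ j < c, ∀ i ∈ G, f j ∉ P j i) (d : ℕ → ℕ) (hd1 : ∀ j < c, 1 ≤ d j)
    (hd : ∀ j < c, f j ∈ V (d j)) (n T : ℕ) :
    (T + 1) ^ c * hilbF V (⨅ i ∈ G, P c i) n ≤
      (∏ j ∈ range c, d j) * finrank k (V (n + c * T)) := by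
  refine (hV.hilbF_chain (fun j => ⨅ i ∈ G, P j i) c (fun j hj => ?_) f (fun j hj => ?_)
    (fun j hj => ?_) d hd1 hd n T).trans (Nat.mul_le_mul_left _ (hV.hilbF_le_finrank _ _))
  · exact iInf₂_mono fun i hi => hmono j hj i hi
  · simp only [Submodule.mem_iInf]
    exact fun i hi => hf j hj i hi
  · exact nzdF_iInf G (P j) (hP j hj) (f j) (hf' j hj)

/-- rank of a finite family of functionals killing `I` -/
theorem rk_dual_le_hilbF {ι : Type*} (I : Ideal R) (n : ℕ) (ev : ι → Module.Dual k (V n))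
    (G : Finset ι) (hI : ∀ i ∈ G, ∀ F : V n, (F : R) ∈ I → ev i F = 0) :
    rk k ev G ≤ hilbF V I n := by
  have := hV.fin n
  let q : V n →ₗ[k] (R ⧸ I) := (Ideal.Quotient.mkₐ k I).toLinearMap ∘ₗ (V n).subtype
  have h1 := LinearMap.finrank_range_add_finrank_ker q
  have h2 : finrank k (LinearMap.range q) = hilbF V I n := by
    have : LinearMap.range q = (V n).map (Ideal.Quotient.mkₐ k I).toLinearMap := by
      rw [LinearMap.range_comp, Submodule.range_subtype]
    rw [this]; rfl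
  have h3 := Subspace.finrank_add_finrank_dualAnnihilator_eq (LinearMap.ker q)
  have h4 : Submodule.span k (ev '' (G : Set ι)) ≤ (LinearMap.ker q).dualAnnihilator := by
    rw [Submodule.span_le]
    rintro _ ⟨i, hi, rfl⟩
    rw [SetLike.mem_coe, Submodule.mem_dualAnnihilator]
    intro F hF
    have h5 : (F : R) ∈ I := by
      have : Ideal.Quotient.mk I (F : R) = 0 := hF
      exact Ideal.Quotient.eq_zero_iff_mem.1 this
    exact hI i (by exact_mod_cast hi) F h5
  have h6 := Submodule.finrank_mono h4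
  have h8 : finrank k (LinearMap.ker q).dualAnnihilator = hilbF V I n := by omega
  exact h6.trans (le_of_eq h8)

end IsFilt

section weighted

variable {σ : Type*}

/-- polynomials of weighted degree `≤ n` -/
noncomputable def Vw (k : Type*) [Field k] {σ : Type*} (w : σ → ℕ) (n : ℕ) :
    Submodule k (MvPolynomial σ k) :=
  restrictSupport k {m : σ →₀ ℕ | Finsupp.weight w m ≤ n}

theorem mem_Vw {w : σ → ℕ} {n : ℕ} {p : MvPolynomial σ k} :
    p ∈ Vw k w n ↔ ∀ m ∈ p.support, Finsupp.weight w m ≤ n := by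
  unfold Vw
  rw [mem_restrictSupport_iff]
  exact Iff.rfl

theorem Vw_one_eq (n : ℕ) : Vw k (fun _ : σ => 1) n = restrictTotalDegree σ k n := by
  unfold Vw restrictTotalDegree
  congr 1
  ext m
  simp [Finsupp.weight_apply]

theorem Vw_mono (w : σ → ℕ) : Monotone (Vw k w) := by
  intro a b hab p hp
  rw [mem_Vw] at hp ⊢
  exact fun m hm => (hp m hm).trans hab

theorem C_mem_Vw (w : σ → ℕ) (c : k) (n : ℕ) : (C c : MvPolynomial σ k) ∈ Vw k w n := by
  classical
  rw [mem_Vw]
  intro m hm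
  rw [MvPolynomial.mem_support_iff, coeff_C] at hm
  split_ifs at hm with h
  · rw [← h]; simp
  · exact absurd rfl hm

theorem X_mem_Vw (w : σ → ℕ) (i : σ) : (X i : MvPolynomial σ k) ∈ Vw k w (w i) := by
  classical
  rw [mem_Vw]
  intro m hm
  rw [support_X, Finset.mem_singleton] at hm
  subst hm
  simp [Finsupp.weight_apply]

theorem mul_mem_Vw (w : σ → ℕ) {a b : ℕ} {p q : MvPolynomial σ k} (hp : p ∈ Vw k w a)
    (hq : q ∈ Vw k w b) : p * q ∈ Vw k w (a + b) := by
  classical
  rw [mem_Vw] at hp hq ⊢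
  intro m hm
  obtain ⟨m1, h1, m2, h2, rfl⟩ := Finset.mem_add.1 (support_mul p q hm)
  rw [map_add]
  exact Nat.add_le_add (hp _ h1) (hq _ h2)

theorem finite_Vw [Finite σ] (w : σ → ℕ) (hw : ∀ i, w i ≠ 0) (n : ℕ) :
    Module.Finite k (Vw k w n) := by
  have : Finite {m : σ →₀ ℕ | Finsupp.weight w m ≤ n} :=
    (Finsupp.finite_of_nat_weight_le w hw n).to_subtype
  exact Module.Finite.of_basis (basisRestrictSupport k {m : σ →₀ ℕ | Finsupp.weight w m ≤ n})

theorem isFilt_Vw [Finite σ] (w : σ → ℕ) (hw : ∀ i, w i ≠ 0) : IsFilt (Vw k w) where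
  mono := Vw_mono w
  one := by rw [← C_1]; exact C_mem_Vw w 1 0
  mul := fun hx hy => mul_mem_Vw w hx hy
  fin := finite_Vw w hw

theorem isFilt_total [Finite σ] : IsFilt (restrictTotalDegree σ k) := by
  have h := isFilt_Vw (k := k) (fun _ : σ => 1) (by simp)
  have h2 : Vw k (fun _ : σ => 1) = restrictTotalDegree σ k := funext Vw_one_eq
  rwa [h2] at h

/-- dimension bound: `∏ (n / w i + 1)` -/
theorem finrank_Vw_le [Fintype σ] (w : σ → ℕ) (hw : ∀ i, w i ≠ 0) (n : ℕ) :
    finrank k (Vw k w n) ≤ ∏ i, (n / w i + 1) := by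
  classical
  have hle : ∀ (m : σ →₀ ℕ), Finsupp.weight w m ≤ n → ∀ i, m i < n / w i + 1 := by
    intro m hm i
    have h1 : m i * w i ≤ Finsupp.weight w m := by
      rw [Finsupp.weight_apply]
      rcases eq_or_ne (m i) 0 with h | h
      · rw [h]; simp
      · exact Finset.single_le_sum (f := fun i => m i • w i) (fun _ _ ↦ Nat.zero_le _)
          (Finsupp.mem_support_iff.mpr h)
    have h2 : m i ≤ n / w i :=
      (Nat.le_div_iff_mul_le (Nat.pos_of_ne_zero (hw i))).2 (h1.trans hm)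
    omega
  let g : {m : σ →₀ ℕ | Finsupp.weight w m ≤ n} → (∀ i, Fin (n / w i + 1)) :=
    fun m i => ⟨m.1 i, hle m.1 m.2 i⟩
  have hg : Function.Injective g := by
    intro s t h
    apply Subtype.ext
    ext i
    have := congrFun h i
    simpa [g] using this
  have : Finite {m : σ →₀ ℕ | Finsupp.weight w m ≤ n} := Finite.of_injective g hg
  have hb := Module.finrank_eq_nat_card_basis
    (basisRestrictSupport k {m : σ →₀ ℕ | Finsupp.weight w m ≤ n})
  have h2 : Nat.card {m : σ →₀ ℕ | Finsupp.weight w m ≤ n} ≤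
      Nat.card (∀ i, Fin (n / w i + 1)) := Nat.card_le_card_of_injective g hg
  rw [Nat.card_pi] at h2
  simp only [Nat.card_eq_fintype_card, Fintype.card_fin] at h2
  exact hb.le.trans h2

/-- partial derivatives lower the weighted degree -/
theorem pderiv_mem_Vw (w : σ → ℕ) {n : ℕ} {p : MvPolynomial σ k} (hp : p ∈ Vw k w n) (i : σ) :
    pderiv i p ∈ Vw k w (n - w i) := by
  classical
  rw [mem_Vw] at hp ⊢
  intro m hm
  rw [MvPolynomial.mem_support_iff, coeff_pderiv] at hm
  have h1 : coeff (m + Finsupp.single i 1) p ≠ 0 := left_ne_zero_of_mul hm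
  have h2 := hp _ (MvPolynomial.mem_support_iff.2 h1)
  rw [map_add] at h2
  have h3 : Finsupp.weight w (Finsupp.single i 1) = w i := by
    simp [Finsupp.weight_apply]
  omega

end weighted

end Vale.Agent.P054.T2.H580
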