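import Vale.Agent.P054.T2.H580.FiltDense
import Vale.Agent.P054.T2.H930.Jets

/-!
# P054 / T2: [GOOD] for a family of fibres and an arbitrary filtration
-/

open MvPolynomial Module Finset

namespace Vale.Agent.P054.T2.H580

open H930 (germ grad)

variable {σ K : Type*} [Field K] [Fintype σ] [DecidableEq σ]

/-- `(⨅ p ∈ Y.image x, P p) = ⨅ e ∈ Y, P (x e)` -/
theorem iInf_image {ι R : Type*} [CommRing R] {α : Type*} [DecidableEq α] (x : ι → α)
    (Y : Finset ι) (P : α → Ideal R) : (⨅ p ∈ Y.image x, P p) = ⨅ e ∈ Y, P (x e) := by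
  apply le_antisymm
  · refine le_iInf₂ fun e he => ?_
    exact iInf₂_le (x e) (Finset.mem_image_of_mem x he)
  · refine le_iInf₂ fun p hp => ?_
    obtain ⟨e, he, rfl⟩ := Finset.mem_image.1 hp
    exact iInf₂_le e he

variable {V : ℕ → Submodule K (MvPolynomial σ K)}

/-- **[GOOD], one fibre**: all `F ∈ V T` vanishing on the fibre `A` at once. -/
theorem IsFilt.good_fibre (hV : IsFilt V) [Infinite K] [DecidableEq (σ → K)] {ι : Type*}
    (x : ι → σ → K) (A : Finset ι) {c : ℕ} (f : Fin c → MvPolynomial σ K)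
    (hf : ∀ e ∈ A, ∀ j, eval (x e) (f j) = 0)
    (hind : ∀ e ∈ A, LinearIndependent K (fun j => grad (x e) (f j)))
    {T : ℕ} (Y : Finset ι) (hYA : Y ⊆ A)
    (hY : ∀ e ∈ Y, ∃ F ∈ V T, (∀ a ∈ A, eval (x a) F = 0) ∧ F ∉ germ (x e) f) (T' J : ℕ) :
    J * rkF V (Y.image x) T' + hilbF V (⨅ e ∈ Y, germ (x e) f) T' ≤
      hilbF V (⨅ e ∈ Y, germ (x e) f) (T' + J * T) := by
  classical
  let W : Submodule K (MvPolynomial σ K) :=
    { carrier := {F | F ∈ V T ∧ ∀ a ∈ A, eval (x a) F = 0}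
      add_mem' := by
        rintro F G ⟨h1, h2⟩ ⟨h3, h4⟩
        exact ⟨(V T).add_mem h1 h3, fun a ha => by rw [map_add, h2 a ha, h4 a ha, add_zero]⟩
      zero_mem' := ⟨(V T).zero_mem, fun a _ => map_zero _⟩
      smul_mem' := by
        rintro r F ⟨h1, h2⟩
        refine ⟨(V T).smul_mem r h1, fun a ha => ?_⟩
        rw [MvPolynomial.smul_eq_C_mul, map_mul, h2 a ha, mul_zero] }
  have h := hV.g3 (A.image x) (fun p => germ p f)
    (by
      intro p hp
      obtain ⟨e, he, rfl⟩ := Finset.mem_image.1 hp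
      exact H930.germ_isPrime (hf e he) (hind e he))
    (by
      intro p hp F hF
      obtain ⟨e, he, rfl⟩ := Finset.mem_image.1 hp
      exact H930.eval_eq_zero_of_mem_germ (hf e he) hF)
    (T := T) W (fun F hF => hF.1)
    (by
      intro F hF p hp
      obtain ⟨e, he, rfl⟩ := Finset.mem_image.1 hp
      exact hF.2 e he)
    (Y.image x) (Finset.image_subset_image hYA)
    (by
      intro p hp
      obtain ⟨e, he, rfl⟩ := Finset.mem_image.1 hp
      obtain ⟨F, hF1, hF2, hF3⟩ := hY e he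
      exact ⟨F, ⟨hF1, hF2⟩, hF3⟩) T' J
  rwa [iInf_image] at h

/-- **[GOOD].**  `E'` the edges, `p` the fibre map, `f s` the system on the fibre of `s`.
`U` bounds the Hilbert function of the germs, `L` is a lower bound for the ranks of dense sets:
for all but a `β'`-th part of the edges every `F ∈ V T` vanishing on the fibre of the edge is in
the germ prime of the edge. -/
theorem IsFilt.good (hV : IsFilt V) [Infinite K] [DecidableEq (σ → K)] {ι S : Type*}
    [DecidableEq S] (p : ι → S) (x : ι → σ → K) (E' : Finset ι) {c : ℕ}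
    (f : S → Fin c → MvPolynomial σ K)
    (hf : ∀ e ∈ E', ∀ j, eval (x e) (f (p e) j) = 0)
    (hind : ∀ e ∈ E', LinearIndependent K (fun j => grad (x e) (f (p e) j)))
    {T T' J U L β' : ℕ}
    (hU : ∀ s, ∀ Y ⊆ E'.filter (fun a => p a = s),
      hilbF V (⨅ e ∈ Y, germ (x e) (f s)) (T' + J * T) ≤ U)
    (hL : ∀ B ⊆ E', E'.card < β' * B.card →
      ∃ e ∈ B, L ≤ rkF V ((B.filter (fun a => p a = p e)).image x) T')
    (hUL : U < J * L)
    (Y : Finset ι) (hYE : Y ⊆ E')
    (hY : ∀ e ∈ Y, ∃ F ∈ V T, (∀ a ∈ E', p a = p e → eval (x a) F = 0) ∧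
      F ∉ germ (x e) (f (p e))) :
    β' * Y.card ≤ E'.card := by
  classical
  by_contra hcon
  push Not at hcon
  obtain ⟨e, he, hLe⟩ := hL Y hYE hcon
  have hsub : Y.filter (fun a => p a = p e) ⊆ E'.filter (fun a => p a = p e) :=
    Finset.filter_subset_filter _ hYE
  have h1 := hV.good_fibre x (E'.filter (fun a => p a = p e)) (f (p e))
    (by
      intro a ha j
      obtain ⟨ha1, ha2⟩ := Finset.mem_filter.1 ha
      rw [← ha2]
      exact hf a ha1 j)
    (by
      intro a ha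
      obtain ⟨ha1, ha2⟩ := Finset.mem_filter.1 ha
      rw [← ha2]
      exact hind a ha1)
    (T := T) (Y.filter (fun a => p a = p e)) hsub
    (by
      intro a ha
      obtain ⟨ha1, ha2⟩ := Finset.mem_filter.1 ha
      obtain ⟨F, hF1, hF2, hF3⟩ := hY a ha1
      refine ⟨F, hF1, ?_, ?_⟩
      · intro a' ha'
        obtain ⟨ha1', ha2'⟩ := Finset.mem_filter.1 ha'
        exact hF2 a' ha1' (by rw [ha2', ha2])
      · rwa [ha2] at hF3) T' J
  have h2 := hU (p e) _ hsub
  have h3 : J * L ≤ J * rkF V ((Y.filter (fun a => p a = p e)).image x) T' :=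
    Nat.mul_le_mul_left _ hLe
  omega

end Vale.Agent.P054.T2.H580
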