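import Vale.Agent.P054.T2.H580.Sys
import Vale.Agent.P054.T2.H580.Good

/-!
# P054 / T2: numbers for the hats (weighted degree, path `b^k₀ * b^i`)
-/

open MvPolynomial Module Finset

namespace Vale.Agent.P054.T2.H580

open H930 (germ grad germChain)
open H441 (resA resA_apply)

/-! ### projections of points -/

section proj

variable {σ τ K ι : Type*} [Field K]

/-- the rank of the projected points is at most the rank of the points -/
theorem rkF_proj_le [DecidableEq (σ → K)] [DecidableEq (τ → K)]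
    (V : ℕ → Submodule K (MvPolynomial σ K)) (V' : ℕ → Submodule K (MvPolynomial τ K))
    (j : τ → σ) {n n' : ℕ} (hV : Module.Finite K (V n))
    (h : ∀ F ∈ V' n', rename j F ∈ V n) (x : ι → σ → K) (A : Finset ι) :
    rkF V' (A.image (fun e => x e ∘ j)) n' ≤ rkF V (A.image x) n := by
  classical
  have hmem : ∀ p : ↥(A.image x), (p : σ → K) ∘ j ∈ A.image (fun e => x e ∘ j) := by
    intro p
    obtain ⟨e, he, hx⟩ := Finset.mem_image.1 p.2
    exact Finset.mem_image.2 ⟨e, he, by rw [← hx]⟩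
  let r : (↥(A.image (fun e => x e ∘ j)) → K) →ₗ[K] (↥(A.image x) → K) :=
    LinearMap.pi fun p => LinearMap.proj ⟨(p : σ → K) ∘ j, hmem p⟩
  have hr : Function.Injective r := by
    rw [injective_iff_map_eq_zero]
    intro y hy
    funext q
    obtain ⟨e, he, hx⟩ := Finset.mem_image.1 q.2
    have h1 := congrFun hy ⟨x e, Finset.mem_image_of_mem x he⟩
    have h2 : r y ⟨x e, Finset.mem_image_of_mem x he⟩ = y q := by
      show y ⟨x e ∘ j, _⟩ = y q
      congr 1
      exact Subtype.ext hx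
    rw [h2] at h1
    exact h1
  have h1 : ((V' n').map (resA (A.image (fun e => x e ∘ j))).toLinearMap).map r ≤
      (V n).map (resA (A.image x)).toLinearMap := by
    rintro _ ⟨_, ⟨F, hF, rfl⟩, rfl⟩
    refine ⟨rename j F, h F hF, ?_⟩
    funext p
    show resA (A.image x) (rename j F) p = r (resA (A.image (fun e => x e ∘ j)) F) p
    have h2 : r (resA (A.image (fun e => x e ∘ j)) F) p =
        resA (A.image (fun e => x e ∘ j)) F ⟨(p : σ → K) ∘ j, hmem p⟩ := rfl
    rw [h2, resA_apply, resA_apply, eval_rename]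
  have hfin : Module.Finite K ((V n).map (resA (A.image x)).toLinearMap) := inferInstance
  unfold rkF
  rw [← (LinearEquiv.finrank_eq (Submodule.equivMapOfInjective r hr _)).symm]
  exact Submodule.finrank_mono h1

/-- weighted degree under renaming -/
theorem rename_mem_Vw_of_weight (w : σ → ℕ) (w' : τ → ℕ) (j : τ → σ) (hw : ∀ i, w (j i) = w' i)
    {n : ℕ} {F : MvPolynomial τ K} (hF : F ∈ Vw K w' n) : rename j F ∈ Vw K w n := by
  classical
  rw [mem_Vw] at hF ⊢
  intro m hm
  obtain ⟨m', rfl, hm'⟩ := coeff_rename_ne_zero j F m (MvPolynomial.mem_support_iff.1 hm)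
  have h1 := hF m' (MvPolynomial.mem_support_iff.2 hm')
  have h2 : Finsupp.weight w (Finsupp.mapDomain j m') = Finsupp.weight w' m' := by
    rw [Finsupp.weight_apply, Finsupp.weight_apply, Finsupp.sum_mapDomain_index]
    · refine Finsupp.sum_congr fun i _ => ?_
      rw [hw]
    · intro i; simp
    · intro i a b; simp [add_mul]
  rwa [h2]

theorem rename_mem_Vw_of_total (w : σ → ℕ) (j : τ → σ) (hw : ∀ i, w (j i) = 1)
    {n : ℕ} {F : MvPolynomial τ K} (hF : F ∈ restrictTotalDegree τ K n) :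
    rename j F ∈ Vw K w n := by
  rw [← Vw_one_eq] at hF
  exact rename_mem_Vw_of_weight w _ j hw hF

end proj

/-! ### arithmetic of the slopes -/

/-- `∑_{j < c} κ_j + i₁ (N - c) = ∑_{k < i₁} (N - v k)` for `c = v (K' - 1)` and `v` constant on
`[K' - 1, i₁)` -/
theorem sum_kap_window (N K' i₁ : ℕ) (v : ℕ → ℕ) (hi : K' ≤ i₁ + 1)
    (hv : ∀ k l : ℕ, k ≤ l → l < K' → v k ≤ v l) (hvN : v (K' - 1) ≤ N)
    (hconst : ∀ k, K' - 1 ≤ k → k < i₁ → v k = v (K' - 1)) :
    (∑ j ∈ range (v (K' - 1)), kap K' v j) + i₁ * (N - v (K' - 1)) =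
      ∑ k ∈ range i₁, (N - v k) := by
  have hle : ∀ k < i₁, v k ≤ v (K' - 1) := by
    intro k hk
    rcases le_or_gt (K' - 1) k with h | h
    · exact (hconst k h hk).le
    · exact hv k (K' - 1) (by omega) (by omega)
  rw [H307.sum_slopes N i₁ v (fun k hk => (hle k hk).trans hvN)]
  obtain ⟨m, hm⟩ := Nat.exists_eq_add_of_le hvN
  rw [hm, Finset.sum_range_add]
  congr 1
  · refine Finset.sum_congr rfl fun j hj => ?_
    have hj' := Finset.mem_range.1 hj
    unfold kap
    congr 1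
    ext k
    simp only [Finset.mem_filter, Finset.mem_range]
    constructor
    · rintro ⟨h1, h2⟩
      refine ⟨?_, h2⟩
      rcases lt_or_ge k i₁ with h | h
      · exact h
      · exfalso
        have h3 : k = K' - 1 := by omega
        rw [h3] at h2
        omega
    · rintro ⟨h1, h2⟩
      refine ⟨?_, h2⟩
      by_contra hcon
      have := hconst k (by omega) h1
      omega
  · have h1 : ∀ j ∈ range m, ((range i₁).filter (fun k => v k ≤ v (K' - 1) + j)).card = i₁ := by
      intro j _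
      rw [Finset.filter_true_of_mem, card_range]
      intro k hk
      have := hle k (Finset.mem_range.1 hk)
      omega
    rw [Finset.sum_congr rfl h1, Finset.sum_const, card_range, smul_eq_mul]
    have : v (K' - 1) + m - v (K' - 1) = m := by omega
    rw [this, mul_comm]

theorem kap_eq_zero (K' : ℕ) (v : ℕ → ℕ) (j : ℕ) (h : ∀ k < K', j < v k) : kap K' v j = 0 := by
  unfold kap
  rw [Finset.card_eq_zero, Finset.filter_eq_empty_iff]
  intro k hk
  have := h k (Finset.mem_range.1 hk)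
  omega

/-! ### upper bound for the hats -/

variable {γ ρ K ι : Type*} [Field K] [Fintype γ] [Fintype ρ] [DecidableEq γ] [DecidableEq ρ]

/-- weights of the hats -/
def wh (γ ρ : Type*) (W : ℕ) : γ ⊕ ρ → ℕ := Sum.elim (fun _ => 1) (fun _ => W)

/-- **upper bound for the germs of the hats at `n ≥ W`** -/
theorem hat_up_aux (W : ℕ) (hW : 1 ≤ W) (x : ι → γ ⊕ ρ → K) (A : Finset ι) {c m : ℕ}
    (f : Fin (c + m) → MvPolynomial (γ ⊕ ρ) K) (d d' : ℕ → ℕ)
    (hd1 : ∀ j < c, 1 ≤ d j) (hd1' : ∀ j < m, 1 ≤ d' j)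
    (hd : ∀ j : Fin c, f (Fin.castAdd m j) ∈ Vw K (wh γ ρ W) (d j))
    (hd' : ∀ j : Fin m, f (Fin.natAdd c j) ∈ Vw K (wh γ ρ W) (W * d' j))
    (hev : ∀ e ∈ A, ∀ j, eval (x e) (f j) = 0)
    (hind : ∀ e ∈ A, LinearIndependent K (fun j => grad (x e) (f j)))
    (hc : c ≤ Fintype.card γ) (hm : c + m ≤ Fintype.card γ + Fintype.card ρ) (q : ℕ)
    (hq : 1 ≤ q) :
    hilbF (Vw K (wh γ ρ W)) (⨅ e ∈ A, germ (x e) f) (W * q) ≤
      (c + m + 2) ^ (Fintype.card γ + Fintype.card ρ) *
        (((∏ j ∈ range c, d j) * W ^ (Fintype.card γ - c)) *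
          ((∏ j ∈ range m, d' j) * q ^ (Fintype.card γ + Fintype.card ρ - (c + m)))) := by
  classical
  set D : ℕ → ℕ := fun j => if j < c then d j else W * d' (j - c) with hD
  have hw : ∀ i, wh γ ρ W i ≠ 0 := by
    rintro (i | i)
    · exact one_ne_zero
    · exact (by show W ≠ 0; omega)
  have hWq : W ≤ W * q := Nat.le_mul_of_pos_right _ hq
  have h := up_Vw (K := K) (wh γ ρ W) hw x A f D
    (by
      intro j hj
      simp only [hD]
      split_ifs with h1
      · exact hd1 j h1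
      · exact Nat.mul_pos hW (hd1' (j - c) (by omega)))
    (by
      intro j
      refine Fin.addCases (fun j => ?_) (fun j => ?_) j
      · have h1 : D (Fin.castAdd m j : Fin (c + m)) = d j := by
          simp only [hD, Fin.val_castAdd, if_pos j.2]
        rw [h1]
        exact hd j
      · have h1 : D (Fin.natAdd c j : Fin (c + m)) = W * d' j := by
          simp only [hD, Fin.val_natAdd]
          rw [if_neg (by omega)]
          congr 2
          omega
        rw [h1]
        exact hd' j)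
    hev hind (by rw [Fintype.card_sum]; exact hm) (W * q)
    (by
      rintro (i | i)
      · exact hW.trans hWq
      · exact hWq)
    (hW.trans hWq)
  have hprodw : ∏ i, wh γ ρ W i = W ^ Fintype.card ρ := by
    rw [Fintype.prod_sum_type]
    simp [wh, Finset.prod_const, Finset.card_univ]
  have hprodD : ∏ j ∈ range (c + m), D j = (∏ j ∈ range c, d j) * (W ^ m * ∏ j ∈ range m, d' j) := by
    rw [Finset.prod_range_add]
    congr 1
    · refine Finset.prod_congr rfl fun j hj => ?_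
      simp only [hD, if_pos (Finset.mem_range.1 hj)]
    · rw [← Finset.card_range m, ← Finset.prod_const, Finset.card_range, ← Finset.prod_mul_distrib]
      refine Finset.prod_congr rfl fun j _ => ?_
      simp only [hD]
      rw [if_neg (by omega)]
      congr 2
      omega
  rw [hprodw, hprodD, Fintype.card_sum, mul_pow] at h
  have hexp : Fintype.card γ + Fintype.card ρ - (c + m) + m =
      Fintype.card ρ + (Fintype.card γ - c) := by omega
  have hWpow : W ^ m * W ^ (Fintype.card γ + Fintype.card ρ - (c + m)) =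
      W ^ Fintype.card ρ * W ^ (Fintype.card γ - c) := by
    rw [← pow_add, ← pow_add, ← hexp, Nat.add_comm]
  have h2 : W ^ Fintype.card ρ *
      hilbF (Vw K (wh γ ρ W)) (⨅ e ∈ A, germ (x e) f) (W * q) ≤
      W ^ Fintype.card ρ * ((c + m + 2) ^ (Fintype.card γ + Fintype.card ρ) *
        (((∏ j ∈ range c, d j) * W ^ (Fintype.card γ - c)) *
          ((∏ j ∈ range m, d' j) * q ^ (Fintype.card γ + Fintype.card ρ - (c + m))))) := by
    refine h.trans (le_of_eq ?_)
    calc (c + m + 2) ^ (Fintype.card γ + Fintype.card ρ) *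
          ((∏ j ∈ range c, d j) * (W ^ m * ∏ j ∈ range m, d' j) *
            (W ^ (Fintype.card γ + Fintype.card ρ - (c + m)) *
              q ^ (Fintype.card γ + Fintype.card ρ - (c + m))))
        = (W ^ m * W ^ (Fintype.card γ + Fintype.card ρ - (c + m))) *
          ((c + m + 2) ^ (Fintype.card γ + Fintype.card ρ) *
          ((∏ j ∈ range c, d j) *
          ((∏ j ∈ range m, d' j) * q ^ (Fintype.card γ + Fintype.card ρ - (c + m))))) := by ring
      _ = _ := by rw [hWpow]; ring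
  exact Nat.le_of_mul_le_mul_left h2 (Nat.pow_pos hW)

/-- **HAT UPPER BOUND.**  `v` the gradient ranks of the edges (levels `b ^ k`), `v (k₀) = c`,
`v'` the gradient ranks of the hat (levels `b ^ (k₀ + i)`), constant on `[i₀, i₁)`,
`v' (i₀) = c + m`, `c ≤ v' i`.  The germs of the system at the scale `2 * b ^ (k₀ + i₁)`. -/
theorem hat_up (b : ℕ) (hb : 1 ≤ b) (k₀ i₀ i₁ : ℕ) (hi : i₀ ≤ i₁) (v v' : ℕ → ℕ)
    (hv : ∀ k l : ℕ, k ≤ l → l ≤ k₀ → v k ≤ v l)
    (hv' : ∀ k l : ℕ, k ≤ l → l ≤ i₀ → v' k ≤ v' l)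
    (hconst : ∀ i, i₀ ≤ i → i < i₁ → v' i = v' i₀)
    {c m : ℕ} (hc : v k₀ = c) (hm : v' i₀ = c + m) (hge : ∀ i ≤ i₀, c ≤ v' i)
    (hcγ : c ≤ Fintype.card γ) (hmN : c + m ≤ Fintype.card γ + Fintype.card ρ)
    (x : ι → γ ⊕ ρ → K) (A : Finset ι)
    (f : Fin (c + m) → MvPolynomial (γ ⊕ ρ) K)
    (hd : ∀ j : Fin c, f (Fin.castAdd m j) ∈ Vw K (wh γ ρ (b ^ k₀)) (b ^ kap (k₀ + 1) v j))
    (hd' : ∀ j : Fin m, f (Fin.natAdd c j) ∈
      Vw K (wh γ ρ (b ^ k₀)) (b ^ (k₀ + kap (i₀ + 1) v' (c + j))))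
    (hev : ∀ e ∈ A, ∀ j, eval (x e) (f j) = 0)
    (hind : ∀ e ∈ A, LinearIndependent K (fun j => grad (x e) (f j))) :
    hilbF (Vw K (wh γ ρ (b ^ k₀))) (⨅ e ∈ A, germ (x e) f) (2 * b ^ (k₀ + i₁)) ≤
      (2 * (Fintype.card γ + Fintype.card ρ + 2)) ^ (Fintype.card γ + Fintype.card ρ) *
        b ^ (∑ k ∈ range k₀, (Fintype.card γ - v k) +
          ∑ i ∈ range i₁, (Fintype.card γ + Fintype.card ρ - v' i)) := by
  classical
  set N := Fintype.card γ + Fintype.card ρ with hN
  have h := hat_up_aux (K := K) (b ^ k₀) (Nat.one_le_pow _ _ hb) x A f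
    (fun j => b ^ kap (k₀ + 1) v j) (fun j => b ^ kap (i₀ + 1) v' (c + j))
    (fun j _ => Nat.one_le_pow _ _ hb) (fun j _ => Nat.one_le_pow _ _ hb) hd
    (fun j => by
      have h1 := hd' j
      rwa [pow_add] at h1)
    hev hind hcγ hmN (2 * b ^ i₁) (by
      have := Nat.one_le_pow i₁ b hb
      omega)
  have harg : b ^ k₀ * (2 * b ^ i₁) = 2 * b ^ (k₀ + i₁) := by rw [pow_add]; ring
  rw [harg] at h
  refine h.trans ?_
  rw [← hN]
  -- the slopes
  have s1 : (∑ j ∈ range c, kap (k₀ + 1) v j) + k₀ * (Fintype.card γ - c) =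
      ∑ k ∈ range k₀, (Fintype.card γ - v k) := by
    have := sum_kap_window (Fintype.card γ) (k₀ + 1) k₀ v (le_refl _)
      (fun k l hkl hl => hv k l hkl (by omega)) (by simpa [hc] using hcγ)
      (fun k h1 h2 => by simp only [Nat.add_sub_cancel] at h1; omega)
    simpa [hc] using this
  have s2 : (∑ j ∈ range m, kap (i₀ + 1) v' (c + j)) + i₁ * (N - (c + m)) =
      ∑ i ∈ range i₁, (N - v' i) := by
    have h3 := sum_kap_window N (i₀ + 1) i₁ v' (by omega)
      (fun k l hkl hl => hv' k l hkl (by omega)) (by simpa [hm] using hmN)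
      (fun k h1 h2 => by simpa using hconst k (by simpa using h1) h2)
    simp only [Nat.add_sub_cancel, hm] at h3
    rw [Finset.sum_range_add] at h3
    have h4 : ∑ j ∈ range c, kap (i₀ + 1) v' j = 0 := by
      refine Finset.sum_eq_zero fun j hj => ?_
      refine kap_eq_zero _ _ _ fun k hk => ?_
      have h5 := hge k (by omega)
      have h6 := Finset.mem_range.1 hj
      omega
    rw [h4, zero_add] at h3
    exact h3
  have hpow : (2 * b ^ i₁) ^ (N - (c + m)) ≤ 2 ^ N * b ^ (i₁ * (N - (c + m))) := by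
    rw [mul_pow, ← pow_mul]
    exact Nat.mul_le_mul_right _ (Nat.pow_le_pow_right (by norm_num) (Nat.sub_le _ _))
  rw [Finset.prod_pow_eq_pow_sum, Finset.prod_pow_eq_pow_sum]
  calc (c + m + 2) ^ N * (b ^ (∑ j ∈ range c, kap (k₀ + 1) v j) *
        (b ^ k₀) ^ (Fintype.card γ - c) *
        (b ^ (∑ j ∈ range m, kap (i₀ + 1) v' (c + j)) * (2 * b ^ i₁) ^ (N - (c + m))))
      ≤ (N + 2) ^ N * (b ^ (∑ j ∈ range c, kap (k₀ + 1) v j) *
        (b ^ k₀) ^ (Fintype.card γ - c) *
        (b ^ (∑ j ∈ range m, kap (i₀ + 1) v' (c + j)) *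
          (2 ^ N * b ^ (i₁ * (N - (c + m)))))) :=
        Nat.mul_le_mul (Nat.pow_le_pow_left (by omega) _)
          (Nat.mul_le_mul_left _ (Nat.mul_le_mul_left _ hpow))
    _ = (2 * (N + 2)) ^ N * b ^ (((∑ j ∈ range c, kap (k₀ + 1) v j) +
        k₀ * (Fintype.card γ - c)) + ((∑ j ∈ range m, kap (i₀ + 1) v' (c + j)) +
          i₁ * (N - (c + m)))) := by
        rw [← pow_mul, mul_pow, pow_add, pow_add, pow_add]
        ring
    _ = _ := by rw [s1, s2]

/-! ### [GOOD] in the form with one number `E` -/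

/-- [GOOD] with the upper bound `C₁ * E` and the lower bound `E / Λ`, `C₁ * Λ < J`. -/
theorem IsFilt.good_num {σ S : Type*} [Fintype σ] [DecidableEq σ]
    {V : ℕ → Submodule K (MvPolynomial σ K)} (hV : IsFilt V) [Infinite K] [DecidableEq (σ → K)]
    [DecidableEq S] (p : ι → S) (x : ι → σ → K) (E' : Finset ι) {c : ℕ}
    (f : S → Fin c → MvPolynomial σ K)
    (hf : ∀ e ∈ E', ∀ j, eval (x e) (f (p e) j) = 0)
    (hind : ∀ e ∈ E', LinearIndependent K (fun j => grad (x e) (f (p e) j)))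
    {T T' J C₁ Λ E β' : ℕ} (hE : 1 ≤ E)
    (hU : ∀ s, ∀ Y ⊆ E'.filter (fun a => p a = s),
      hilbF V (⨅ e ∈ Y, germ (x e) (f s)) (T' + J * T) ≤ C₁ * E)
    (hL : ∀ B ⊆ E', E'.card < β' * B.card →
      ∃ e ∈ B, E ≤ Λ * rkF V ((B.filter (fun a => p a = p e)).image x) T')
    (hJ : C₁ * Λ < J)
    (Y : Finset ι) (hYE : Y ⊆ E')
    (hY : ∀ e ∈ Y, ∃ F ∈ V T, (∀ a ∈ E', p a = p e → eval (x a) F = 0) ∧
      F ∉ germ (x e) (f (p e))) :
    β' * Y.card ≤ E'.card := by
  classical
  rcases Nat.eq_zero_or_pos Λ with h0 | h0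
  · by_contra hcon
    push Not at hcon
    obtain ⟨e, he, h1⟩ := hL Y hYE hcon
    rw [h0, zero_mul] at h1
    omega
  · have hΛ : ∀ B ⊆ E', E'.card < β' * B.card → ∃ e ∈ B,
        (E + Λ - 1) / Λ ≤ rkF V ((B.filter (fun a => p a = p e)).image x) T' := by
      intro B hB hcard
      obtain ⟨e, he, h1⟩ := hL B hB hcard
      refine ⟨e, he, ?_⟩
      have h2 : (E + Λ - 1) / Λ < rkF V ((B.filter (fun a => p a = p e)).image x) T' + 1 := by
        rw [Nat.div_lt_iff_lt_mul h0]
        have h3 : (rkF V ((B.filter (fun a => p a = p e)).image x) T' + 1) * Λ =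
          Λ * rkF V ((B.filter (fun a => p a = p e)).image x) T' + Λ := by ring
        omega
      omega
    refine hV.good p x E' f hf hind (T := T) (T' := T') (J := J) (U := C₁ * E)
      (L := (E + Λ - 1) / Λ) hU hΛ ?_ Y hYE hY
    have h1 : E ≤ Λ * ((E + Λ - 1) / Λ) := by
      have h2 := Nat.lt_mul_div_succ (E + Λ - 1) h0
      have h3 : Λ * ((E + Λ - 1) / Λ + 1) = Λ * ((E + Λ - 1) / Λ) + Λ := by ring
      omega
    have h4 : 0 < (E + Λ - 1) / Λ := by
      rw [Nat.pos_iff_ne_zero]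
      intro h5
      rw [h5] at h1
      omega
    calc C₁ * E ≤ C₁ * (Λ * ((E + Λ - 1) / Λ)) := Nat.mul_le_mul_left _ h1
      _ = C₁ * Λ * ((E + Λ - 1) / Λ) := by ring
      _ < J * ((E + Λ - 1) / Λ) := Nat.mul_lt_mul_of_pos_right hJ h4

end Vale.Agent.P054.T2.H580
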