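import Vale.Agent.P054.T2.H580.Uni

/-!
# P054 / T2: the hats over a uniform set of edges: systems, lower bound, [GOOD]
-/

set_option linter.unusedSectionVars false

open MvPolynomial Module Finset

namespace Vale.Agent.P054.T2.H580

open H930 (germ)
open H307 (van pts mem_van mem_pts van_mono IsUnif IsFam gfr core core_subset core_anti core_zero
  fib mem_fib fib_mono fib_subset self_mem_fib gr gsp lo_core)

variable {ι κ K S : Type*} [Field K] [CharZero K] [Infinite K]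
variable {c : κ → Finset ι → ι → ℕ} {J : Finset κ} {β : ℕ} {E' : Finset ι} {v : κ → ℕ}
variable {γ ρ : Type*} [Fintype γ] [Fintype ρ] [DecidableEq γ] [DecidableEq ρ]

omit [CharZero K] [Infinite K] [Fintype γ] [Fintype ρ] [DecidableEq γ] [DecidableEq ρ] in
theorem wh_ne_zero {W : ℕ} (hW : 1 ≤ W) (i : γ ⊕ ρ) : wh γ ρ W i ≠ 0 := by
  rcases i with i | i
  · exact one_ne_zero
  · exact (by show W ≠ 0; omega)

omit [CharZero K] [Infinite K] [Fintype γ] [Fintype ρ] [DecidableEq γ] [DecidableEq ρ] in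
theorem wh_le {W : ℕ} (hW : 1 ≤ W) (i : γ ⊕ ρ) : wh γ ρ W i ≤ W := by
  rcases i with i | i
  · exact hW
  · exact le_rfl

/-- a number which bounds the gradient ranks from below at all edges is at most the value -/
theorem le_value {V : ℕ → Submodule K (MvPolynomial (γ ⊕ ρ) K)}
    (h : IsUnif c J β E' v) (hE : E'.Nonempty) (hβ : 1 < β)
    {x : ι → γ ⊕ ρ → K} {p : ι → S} {a b : ℕ}
    {idx : ℕ → κ} {K' : ℕ} (hF : IsFam c J idx K' x p V a b) {j : ℕ} (hj : j ≤ K') {m : ℕ}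
    (hm : ∀ e ∈ E', m ≤ gr x (fib p E' (p e)) (V (a * b ^ j)) (x e)) : m ≤ v (idx j) := by
  by_contra hcon
  push Not at hcon
  have h1 := h.small (idx j) (hF j hj).1 E' (Finset.Subset.refl _) (fun e he => by
    rw [(hF j hj).2]
    exact hcon.trans_le (hm e he))
  have h2 : 0 < E'.card := hE.card_pos
  have h3 : 2 * E'.card ≤ β * E'.card := Nat.mul_le_mul_right _ hβ
  omega

/-- gradients of the renamed system -/
theorem linInd_rename (z : γ ⊕ ρ → K) {n : ℕ} (f : Fin n → MvPolynomial γ K)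
    (hf : LinearIndependent K (fun j => H930.grad (z ∘ Sum.inl) (f j))) :
    LinearIndependent K (fun j => H930.grad z (rename Sum.inl (f j) : MvPolynomial (γ ⊕ ρ) K)) := by
  rw [Fintype.linearIndependent_iff] at hf ⊢
  intro g hg
  apply hf g
  funext i
  have h1 := congrFun hg (Sum.inl i)
  simp only [Finset.sum_apply, Pi.smul_apply, H930.grad_rename_inl, Sum.elim_inl,
    Pi.zero_apply] at h1 ⊢
  exact h1

/-- **(SYS) for the hats**: the system of the edges (in the `g`-variables) is completed to a system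
of the hat of `v (idxH i₀) = c₀ + m` equations. -/
theorem hat_sys (h : IsUnif c J β E' v) (hE : E'.Nonempty) (hβ : 1 < β)
    {b : ℕ} (hb : 1 < b) (k₀ : ℕ) {x : ι → γ ⊕ ρ → K} {p : ι → S}
    {idxF idxH : ℕ → κ} {KF KH : ℕ}
    (hFF : IsFam c J idxF KF (fun e => x e ∘ Sum.inl) p (restrictTotalDegree γ K) 1 b)
    (hFH : IsFam c J idxH KH x p (Vw K (wh γ ρ (b ^ k₀))) (b ^ k₀) b)
    (hk₀ : k₀ ≤ KF)
    (f : S → Fin (v (idxF k₀)) → MvPolynomial γ K)
    (hf : ∀ s, ∀ j : Fin (v (idxF k₀)), f s j ∈ van (fun e => x e ∘ Sum.inl) (fib p E' s)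
      (restrictTotalDegree γ K (b ^ kap (k₀ + 1) (fun j => v (idxF j)) (j : ℕ))))
    (hind : ∀ e ∈ E', LinearIndependent K (fun j => H930.grad (x e ∘ Sum.inl) (f (p e) j))) :
    (∀ i ≤ KH, v (idxF k₀) ≤ v (idxH i)) ∧
    ∀ i₀ ≤ KH, ∀ m, v (idxF k₀) + m = v (idxH i₀) →
      ∃ F : S → Fin (v (idxF k₀) + m) → MvPolynomial (γ ⊕ ρ) K,
        (∀ s j, F s (Fin.castAdd m j) = rename Sum.inl (f s j)) ∧
        (∀ s, ∀ j : Fin (v (idxF k₀)), F s (Fin.castAdd m j) ∈ van x (fib p E' s)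
          (Vw K (wh γ ρ (b ^ k₀)) (b ^ kap (k₀ + 1) (fun j => v (idxF j)) (j : ℕ)))) ∧
        (∀ s, ∀ j : Fin m, F s (Fin.natAdd (v (idxF k₀)) j) ∈ van x (fib p E' s)
          (Vw K (wh γ ρ (b ^ k₀))
            (b ^ (k₀ + kap (i₀ + 1) (fun j => v (idxH j)) (v (idxF k₀) + j))))) ∧
        ∀ e ∈ E', LinearIndependent K (fun j => H930.grad (x e) (F (p e) j)) := by
  classical
  have hb1 : 1 ≤ b ^ k₀ := Nat.one_le_pow _ _ hb.le
  have hVT := isFilt_total (k := K) (σ := γ)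
  have hVH := isFilt_Vw (k := K) (wh γ ρ (b ^ k₀)) (wh_ne_zero hb1)
  -- the renamed equations
  have hren : ∀ s, ∀ j : Fin (v (idxF k₀)), (rename Sum.inl (f s j) : MvPolynomial (γ ⊕ ρ) K) ∈
      van x (fib p E' s)
        (Vw K (wh γ ρ (b ^ k₀)) (b ^ kap (k₀ + 1) (fun j => v (idxF j)) (j : ℕ))) := by
    intro s j
    refine mem_van.2 ⟨rename_mem_Vw_of_total _ Sum.inl (fun _ => rfl) (mem_van.1 (hf s j)).1, ?_⟩
    intro e he
    rw [eval_rename]
    exact (mem_van.1 (hf s j)).2 e he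
  have hkap : ∀ j : Fin (v (idxF k₀)), b ^ kap (k₀ + 1) (fun j => v (idxF j)) (j : ℕ) ≤ b ^ k₀ := by
    intro j
    refine Nat.pow_le_pow_right hb.le ?_
    exact kap_le_of_lt (k₀ + 1) (fun j => v (idxF j))
      (fun k l hkl hl => h.fam_mono hE hβ hVT.mono hb.le hFF hkl (by omega)) j k₀ j.2
  have hindr : ∀ e ∈ E', LinearIndependent K
      (fun j => H930.grad (x e) (rename Sum.inl (f (p e) j) : MvPolynomial (γ ⊕ ρ) K)) :=
    fun e he => linInd_rename (x e) (f (p e)) (hind e he)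
  have hge : ∀ i ≤ KH, (v (idxF k₀)) ≤ v (idxH i) := by
    intro i hi
    refine le_value h hE hβ hFH hi (fun e he => ?_)
    have hmem : ∀ j : Fin (v (idxF k₀)), H930.grad (x e) (rename Sum.inl (f (p e) j)) ∈
        gsp x (fib p E' (p e)) (Vw K (wh γ ρ (b ^ k₀)) (b ^ k₀ * b ^ i)) (x e) := by
      intro j
      refine H307.grad_mem_gsp (van_mono (Finset.Subset.refl _) (hVH.mono ?_) (hren (p e) j)) (x e)
      exact (hkap j).trans (Nat.le_mul_of_pos_right _ (Nat.pow_pos (by omega)))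
    have h1 : Submodule.span K (Set.range
        (fun j => H930.grad (x e) (rename Sum.inl (f (p e) j) : MvPolynomial (γ ⊕ ρ) K))) ≤
        gsp x (fib p E' (p e)) (Vw K (wh γ ρ (b ^ k₀)) (b ^ k₀ * b ^ i)) (x e) := by
      rw [Submodule.span_le]
      rintro _ ⟨j, rfl⟩
      exact hmem j
    have h2 := Submodule.finrank_mono h1
    rw [finrank_span_eq_card (hindr e he), Fintype.card_fin] at h2
    exact h2
  refine ⟨hge, ?_⟩
  intro i₀ hi₀ m hm
  have hone : ∀ s, ∃ F : Fin (v (idxF k₀) + m) → MvPolynomial (γ ⊕ ρ) K,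
      (∀ j, F (Fin.castAdd m j) = rename Sum.inl (f s j)) ∧
      (∀ j : Fin m, F (Fin.natAdd (v (idxF k₀)) j) ∈ van x (fib p E' s)
          (Vw K (wh γ ρ (b ^ k₀))
            (b ^ k₀ * b ^ (kap (i₀ + 1) (fun j => v (idxH j)) ((v (idxF k₀)) + j))))) ∧
      ∀ e ∈ fib p E' s, LinearIndependent K (fun j => H307.grad (x e) (F j)) := by
    intro s
    refine exists_sys_ext (K := K) (fib p E' s) (fun e => H307.grad (x e))
      (fun k => van x (fib p E' s) (Vw K (wh γ ρ (b ^ k₀)) (b ^ k₀ * b ^ k))) (i₀ + 1)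
      (Nat.succ_pos _) (fun j => v (idxH j))
      (fun k l hkl hl => h.fam_mono hE hβ hVH.mono hb.le hFH hkl (by omega)) ?_
      (fun j => rename Sum.inl (f s j)) ?_ m (by simpa using hm.le)
    · intro k hk e he
      obtain ⟨he1, he2⟩ := mem_fib.1 he
      have h1 := h.le (idxH k) (hFH k (by omega)).1 E' (Finset.Subset.refl _) e he1
      rw [(hFH k (by omega)).2] at h1
      unfold gfr at h1
      rw [he2] at h1
      exact h1
    · intro e he
      obtain ⟨he1, he2⟩ := mem_fib.1 he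
      have h1 := hindr e he1
      rw [he2] at h1
      exact h1
  choose F hF1 hF2 hF3 using hone
  refine ⟨F, hF1, ?_, ?_, ?_⟩
  · intro s j
    rw [hF1]
    exact hren s j
  · intro s j
    rw [pow_add]
    exact hF2 s j
  · intro e he
    exact hF3 (p e) e (self_mem_fib he)

/-- **lower bound for the hats on dense sets** -/
theorem hat_lower_u {N k C₁ L K₀ q : ℕ} (hP : Par N k β C₁ L K₀ q J.card)
    (h : IsUnif c J β E' v)
    (hmono : ∀ j ∈ J, ∀ A B : Finset ι, A ⊆ B → B ⊆ E' → ∀ e ∈ A, c j B e ≤ c j A e)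
    (hN : Fintype.card γ + Fintype.card ρ ≤ N) (k₀ i₁ : ℕ) {x : ι → γ ⊕ ρ → K} {p : ι → S}
    {idxF idxH : ℕ → κ}
    (hFF : IsFam c J idxF k₀ (fun e => x e ∘ Sum.inl) p (restrictTotalDegree γ K) 1 (β ^ L))
    (hFH : IsFam c J idxH i₁ x p (Vw K (wh γ ρ ((β ^ L) ^ k₀))) ((β ^ L) ^ k₀) (β ^ L))
    (hk₀ : k₀ ≤ K₀) (hi₁ : i₁ ≤ K₀) {B : Finset ι} (hB : B ⊆ E') {r : ℕ} (hr : 2 * r ≤ q)
    (hd : E'.card < r * B.card) :
    ∃ e ∈ B, (β ^ L) ^ (∑ j ∈ range k₀, (Fintype.card γ - v (idxF j)) +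
        ∑ i ∈ range i₁, (Fintype.card γ + Fintype.card ρ - v (idxH i))) ≤
      ((((C₁ ^ (Fintype.card γ) * (Fintype.card γ).factorial) ^ L) ^ k₀ *
        (β ^ L) ^ (Fintype.card γ * Fintype.card γ)) *
       (((C₁ ^ (Fintype.card γ + Fintype.card ρ) *
          (Fintype.card γ + Fintype.card ρ).factorial) ^ L) ^ i₁ *
        (β ^ L) ^ ((Fintype.card γ + Fintype.card ρ) * (Fintype.card γ + Fintype.card ρ)))) *
      rkF (Vw K (wh γ ρ ((β ^ L) ^ k₀))) (pts x (fib p B (p e))) ((β ^ L) ^ (k₀ + i₁)) := by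
  classical
  have hb1 := hP.b_gt_one
  have hW1 : 1 ≤ (β ^ L) ^ k₀ := Nat.one_le_pow _ _ hb1.le
  have hVT := isFilt_total (k := K) (σ := γ)
  have hVH := isFilt_Vw (k := K) (wh γ ρ ((β ^ L) ^ k₀)) (wh_ne_zero hW1)
  have hderT : ∀ n (i : γ) (F : MvPolynomial γ K), F ∈ restrictTotalDegree γ K n →
      pderiv i F ∈ restrictTotalDegree γ K n := by
    intro n i F hF
    rw [← Vw_one_eq] at hF ⊢
    exact Vw_mono _ (by omega) (pderiv_mem_Vw _ hF i)
  have hXT : ∀ i : γ, (X i : MvPolynomial γ K) ∈ restrictTotalDegree γ K 1 := by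
    intro i
    rw [← Vw_one_eq]
    exact X_mem_Vw _ i
  have hderH : ∀ n (i : γ ⊕ ρ) (F : MvPolynomial (γ ⊕ ρ) K),
      F ∈ Vw K (wh γ ρ ((β ^ L) ^ k₀)) n → pderiv i F ∈ Vw K (wh γ ρ ((β ^ L) ^ k₀)) n :=
    fun n i F hF => Vw_mono _ (Nat.sub_le _ _) (pderiv_mem_Vw _ hF i)
  have hXH : ∀ i : γ ⊕ ρ, (X i : MvPolynomial (γ ⊕ ρ) K) ∈
      Vw K (wh γ ρ ((β ^ L) ^ k₀)) ((β ^ L) ^ k₀) :=
    fun i => X_mem_Vw_le _ (wh_le hW1) i
  have hd1 := core_dense hP h hmono hB hr hd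
  have hA1 : core c J v B (K₀ * (L * k)) ⊆ E' := (core_subset _ _).trans hB
  obtain ⟨e, he⟩ := core_nonempty hP h hmono hA1 hr hd1
  have he1 : e ∈ core c J v B (K₀ * (L * k)) := core_subset _ _ he
  refine ⟨e, core_subset _ _ he1, ?_⟩
  have hcardH : Fintype.card (γ ⊕ ρ) = Fintype.card γ + Fintype.card ρ := Fintype.card_sum
  have h1 := fam_lower hP hVT hderT hXT (by omega) hk₀ hFF he
  have h2 := fam_lower hP hVH hderH hXH (by rw [hcardH]; exact hN) hi₁ hFH he1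
  rw [one_mul] at h1
  rw [hcardH, ← pow_add] at h2
  exact hat_lower x (β ^ L) hb1.le k₀ i₁ _ _ _ _ (fib p B (p e))
    (fib p (core c J v B (K₀ * (L * k))) (p e))
    (fib p (core c J v (core c J v B (K₀ * (L * k))) (K₀ * (L * k))) (p e))
    ⟨e, self_mem_fib he⟩ h1 h2

/-- **[GOOD] for the hats** on a dense subset `A` (`|E'| ≤ r |A|`), at the level `b ^ (k₀ + i)`. -/
theorem hat_GOOD {N k C₁ L K₀ q : ℕ} (hP : Par N k β C₁ L K₀ q J.card)
    (h : IsUnif c J β E' v) (hE : E'.Nonempty)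
    (hmono : ∀ j ∈ J, ∀ A B : Finset ι, A ⊆ B → B ⊆ E' → ∀ e ∈ A, c j B e ≤ c j A e)
    (hN : Fintype.card γ + Fintype.card ρ ≤ N) (k₀ i₀ i₁ : ℕ) (hi : i₀ ≤ i₁)
    {x : ι → γ ⊕ ρ → K} {p : ι → S} {idxF idxH : ℕ → κ}
    (hFF : IsFam c J idxF k₀ (fun e => x e ∘ Sum.inl) p (restrictTotalDegree γ K) 1 (β ^ L))
    (hFH : IsFam c J idxH i₁ x p (Vw K (wh γ ρ ((β ^ L) ^ k₀))) ((β ^ L) ^ k₀) (β ^ L))
    (hk₀ : k₀ ≤ K₀) (hi₁ : i₁ ≤ K₀)
    (hconst : ∀ i, i₀ ≤ i → i < i₁ → v (idxH i) = v (idxH i₀))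
    {m : ℕ} (hm : v (idxH i₀) = v (idxF k₀) + m) (hge : ∀ i ≤ i₀, v (idxF k₀) ≤ v (idxH i))
    (F : S → Fin (v (idxF k₀) + m) → MvPolynomial (γ ⊕ ρ) K)
    (hF1 : ∀ s, ∀ j : Fin (v (idxF k₀)), F s (Fin.castAdd m j) ∈ van x (fib p E' s)
      (Vw K (wh γ ρ ((β ^ L) ^ k₀))
        ((β ^ L) ^ kap (k₀ + 1) (fun j => v (idxF j)) (j : ℕ))))
    (hF2 : ∀ s, ∀ j : Fin m, F s (Fin.natAdd (v (idxF k₀)) j) ∈ van x (fib p E' s)
      (Vw K (wh γ ρ ((β ^ L) ^ k₀))
        ((β ^ L) ^ (k₀ + kap (i₀ + 1) (fun j => v (idxH j)) (v (idxF k₀) + j)))))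
    (hF3 : ∀ e ∈ E', LinearIndependent K (fun j => H930.grad (x e) (F (p e) j)))
    {A : Finset ι} (hA : A ⊆ E') {r β' : ℕ} (hr : E'.card ≤ r * A.card)
    (hrq : 2 * (r * β') ≤ q)
    (i : ℕ) (hii : i + 2 * (N * N) + 2 ≤ i₁)
    (Y : Finset ι) (hYA : Y ⊆ A)
    (hY : ∀ e ∈ Y, ∃ G ∈ Vw K (wh γ ρ ((β ^ L) ^ k₀)) ((β ^ L) ^ (k₀ + i)),
      (∀ a ∈ A, p a = p e → eval (x a) G = 0) ∧ G ∉ germ (x e) (F (p e))) :
    β' * Y.card ≤ A.card := by
  classical
  have hb1 := hP.b_gt_one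
  have hW1 : 1 ≤ (β ^ L) ^ k₀ := Nat.one_le_pow _ _ hb1.le
  have hVT := isFilt_total (k := K) (σ := γ)
  have hVH := isFilt_Vw (k := K) (wh γ ρ ((β ^ L) ^ k₀)) (wh_ne_zero hW1)
  have hcardH : Fintype.card (γ ⊕ ρ) = Fintype.card γ + Fintype.card ρ := Fintype.card_sum
  have hcγ : v (idxF k₀) ≤ Fintype.card γ := fam_le_card h hE hFF le_rfl
  have hcH : v (idxF k₀) + m ≤ Fintype.card γ + Fintype.card ρ := by
    rw [← hm, ← hcardH]
    exact fam_le_card h hE hFH hi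
  have hsub : ∀ s, A.filter (fun a => p a = s) ⊆ fib p E' s := fun s e he => by
    obtain ⟨h1, h2⟩ := Finset.mem_filter.1 he
    exact mem_fib.2 ⟨hA h1, h2⟩
  refine hat_good p x A (β ^ L) hb1.le k₀ i₀ i₁ hi (fun j => v (idxF j)) (fun j => v (idxH j))
    (fun k l hkl hl => h.fam_mono hE hP.beta_gt_one hVT.mono hb1.le hFF hkl hl)
    (fun k l hkl hl => h.fam_mono hE hP.beta_gt_one hVH.mono hb1.le hFH hkl (hl.trans hi))
    hconst rfl hm hge hcγ hcH F
    (fun s j => van_mono (hsub s) le_rfl (hF1 s j))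
    (fun s j => van_mono (hsub s) le_rfl (hF2 s j))
    (fun e he => hF3 e (hA he))
    (Λ := (((C₁ ^ (Fintype.card γ) * (Fintype.card γ).factorial) ^ L) ^ k₀ *
        (β ^ L) ^ (Fintype.card γ * Fintype.card γ)) *
       (((C₁ ^ (Fintype.card γ + Fintype.card ρ) *
          (Fintype.card γ + Fintype.card ρ).factorial) ^ L) ^ i₁ *
        (β ^ L) ^ ((Fintype.card γ + Fintype.card ρ) * (Fintype.card γ + Fintype.card ρ)))) ?_
    i (by omega) ?_ Y hYA hY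
  · intro B hB hcard
    have hBd : E'.card < (r * β') * B.card := by
      rcases Nat.eq_zero_or_pos r with h0 | h0
      · exfalso
        rw [h0, zero_mul] at hr
        have := hE.card_pos
        omega
      · calc E'.card ≤ r * A.card := hr
          _ < r * (β' * B.card) := Nat.mul_lt_mul_of_pos_left hcard h0
          _ = (r * β') * B.card := by ring
    obtain ⟨e, he, h1⟩ := hat_lower_u hP h hmono hN k₀ i₁ hFF hFH hk₀ hi₁ (hB.trans hA) hrq hBd
    refine ⟨e, he, ?_⟩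
    rw [fib_eq p B (p e)] at h1
    exact h1
  · have h1 := hP.loss (M₁ := Fintype.card γ + Fintype.card ρ) (M₂ := Fintype.card γ)
      (M₃ := Fintype.card γ + Fintype.card ρ) hN (by omega) hN hk₀ hi₁
    have h2 : Fintype.card γ * Fintype.card γ ≤ N * N := Nat.mul_le_mul (by omega) (by omega)
    have h3 : (Fintype.card γ + Fintype.card ρ) * (Fintype.card γ + Fintype.card ρ) ≤ N * N :=
      Nat.mul_le_mul hN hN
    set X₁ := ((C₁ ^ (Fintype.card γ) * (Fintype.card γ).factorial) ^ L) ^ k₀ with hX₁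
    set X₂ := ((C₁ ^ (Fintype.card γ + Fintype.card ρ) *
          (Fintype.card γ + Fintype.card ρ).factorial) ^ L) ^ i₁ with hX₂
    set M₁ := Fintype.card γ * Fintype.card γ with hM₁
    set M₂ := (Fintype.card γ + Fintype.card ρ) * (Fintype.card γ + Fintype.card ρ) with hM₂
    set Q := (2 * (Fintype.card γ + Fintype.card ρ + 2)) ^ (Fintype.card γ + Fintype.card ρ)
      with hQ
    calc Q * (X₁ * (β ^ L) ^ M₁ * (X₂ * (β ^ L) ^ M₂))
        = (Q * (X₁ * X₂)) * ((β ^ L) ^ M₁ * (β ^ L) ^ M₂) := by ring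
      _ ≤ β ^ L * ((β ^ L) ^ M₁ * (β ^ L) ^ M₂) := Nat.mul_le_mul_right _ h1
      _ = (β ^ L) ^ (M₁ + M₂ + 1) := by ring
      _ < (β ^ L) ^ (i₁ - i) := Nat.pow_lt_pow_right hb1 (by omega)

end Vale.Agent.P054.T2.H580
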