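import Vale.Agent.P054.T2.H580.Hat
import Vale.Agent.P054.T2.H307.Lo

/-!
# P054 / T2: [GOOD] along a window, in the letters of `H307` (families with weights 1, hats)
-/

open MvPolynomial Module Finset

namespace Vale.Agent.P054.T2.H580

open H930 (germ)
open H307 (van pts mem_van mem_pts)

theorem pts_eq {ι σ K : Type*} [DecidableEq (σ → K)] (x : ι → σ → K) (A : Finset ι) :
    pts x A = A.image x := by
  ext z
  rw [mem_pts, Finset.mem_image]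

section

variable {ι S σ K : Type*} [Field K] [Fintype σ] [DecidableEq σ]

/-- upper bound for a family with weights `1`, at the scale `2 * b ^ k₁` -/
theorem fam_up (b : ℕ) (hb : 1 ≤ b) (k₀ k₁ : ℕ) (hk : k₀ ≤ k₁) (v : ℕ → ℕ)
    (hv : ∀ k l : ℕ, k ≤ l → l ≤ k₀ → v k ≤ v l)
    (hconst : ∀ k, k₀ ≤ k → k < k₁ → v k = v k₀) (hvN : v k₀ ≤ Fintype.card σ)
    (x : ι → σ → K) (A : Finset ι) (f : Fin (v k₀) → MvPolynomial σ K)
    (hd : ∀ j : Fin (v k₀), f j ∈ restrictTotalDegree σ K (b ^ kap (k₀ + 1) v (j : ℕ)))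
    (hev : ∀ e ∈ A, ∀ j, eval (x e) (f j) = 0)
    (hind : ∀ e ∈ A, LinearIndependent K (fun j => H930.grad (x e) (f j))) :
    hilbF (restrictTotalDegree σ K) (⨅ e ∈ A, germ (x e) f) (2 * b ^ k₁) ≤
      (2 * (Fintype.card σ + 2)) ^ Fintype.card σ *
        b ^ (∑ k ∈ range k₁, (Fintype.card σ - v k)) := by
  classical
  set N := Fintype.card σ with hN
  have hVw : Vw K (fun _ : σ => 1) = restrictTotalDegree σ K := funext Vw_one_eq
  have hb1 : 1 ≤ b ^ k₁ := Nat.one_le_pow _ _ hb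
  have h := up_Vw (K := K) (fun _ : σ => 1) (fun _ => one_ne_zero) x A f
    (fun j => b ^ kap (k₀ + 1) v j) (fun j _ => Nat.one_le_pow _ _ hb)
    (fun j => by rw [hVw]; exact hd j) hev hind hvN (2 * b ^ k₁)
    (fun _ => by show 1 ≤ 2 * b ^ k₁; omega) (by omega)
  rw [hVw, Finset.prod_const_one, one_mul, Finset.prod_pow_eq_pow_sum] at h
  refine h.trans ?_
  have s1 : (∑ j ∈ range (v k₀), kap (k₀ + 1) v j) + k₁ * (N - v k₀) =
      ∑ k ∈ range k₁, (N - v k) := by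
    have := sum_kap_window N (k₀ + 1) k₁ v (by omega)
      (fun k l hkl hl => hv k l hkl (by omega)) (by simpa using hvN)
      (fun k h1 h2 => by simpa using hconst k (by simpa using h1) h2)
    simpa using this
  have hpow : (2 * b ^ k₁) ^ (N - v k₀) ≤ 2 ^ N * b ^ (k₁ * (N - v k₀)) := by
    rw [mul_pow, ← pow_mul]
    exact Nat.mul_le_mul_right _ (Nat.pow_le_pow_right (by norm_num) (Nat.sub_le _ _))
  calc (v k₀ + 2) ^ N * (b ^ (∑ j ∈ range (v k₀), kap (k₀ + 1) v j) * (2 * b ^ k₁) ^ (N - v k₀))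
      ≤ (N + 2) ^ N * (b ^ (∑ j ∈ range (v k₀), kap (k₀ + 1) v j) *
          (2 ^ N * b ^ (k₁ * (N - v k₀)))) :=
        Nat.mul_le_mul (Nat.pow_le_pow_left (by omega) _) (Nat.mul_le_mul_left _ hpow)
    _ = (2 * (N + 2)) ^ N * b ^ ((∑ j ∈ range (v k₀), kap (k₀ + 1) v j) + k₁ * (N - v k₀)) := by
        rw [mul_pow, pow_add]; ring
    _ = _ := by rw [s1]

/-- **[GOOD] along the window, families with weights `1`** (edges, leaves of `s`, leaves of `r`).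
`v k` the gradient ranks, `f s` the common system on the fibre of `s` at the scale `k₀`,
`v` constant on `[k₀, k₁)`; the ranks of dense sets at the scale `b ^ k₁` are at least
`b ^ (∑_{k<k₁} (N - v k)) / Λ`.  Then for all but a `β'`-th part of the edges every polynomial of
degree `≤ b ^ k` which vanishes on the fibre is in the germ prime. -/
theorem fam_good [Infinite K] [DecidableEq S] (p : ι → S) (x : ι → σ → K) (E' : Finset ι)
    (b : ℕ) (hb : 1 ≤ b) (k₀ k₁ : ℕ) (hk : k₀ ≤ k₁) (v : ℕ → ℕ)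
    (hv : ∀ k l : ℕ, k ≤ l → l ≤ k₀ → v k ≤ v l)
    (hconst : ∀ k, k₀ ≤ k → k < k₁ → v k = v k₀) (hvN : v k₀ ≤ Fintype.card σ)
    (f : S → Fin (v k₀) → MvPolynomial σ K)
    (hf : ∀ s, ∀ j : Fin (v k₀), f s j ∈ van x (E'.filter (fun a => p a = s))
      (restrictTotalDegree σ K (b ^ kap (k₀ + 1) v (j : ℕ))))
    (hind : ∀ e ∈ E', LinearIndependent K (fun j => H930.grad (x e) (f (p e) j)))
    {Λ β' : ℕ}
    (hL : ∀ B ⊆ E', E'.card < β' * B.card →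
      ∃ e ∈ B, b ^ (∑ k ∈ range k₁, (Fintype.card σ - v k)) ≤
        Λ * rkF (restrictTotalDegree σ K) (pts x (B.filter (fun a => p a = p e))) (b ^ k₁))
    (k : ℕ) (hkk : k ≤ k₁)
    (hJ : (2 * (Fintype.card σ + 2)) ^ Fintype.card σ * Λ < b ^ (k₁ - k))
    (Y : Finset ι) (hYE : Y ⊆ E')
    (hY : ∀ e ∈ Y, ∃ F : MvPolynomial σ K, F.totalDegree ≤ b ^ k ∧
      (∀ a ∈ E', p a = p e → eval (x a) F = 0) ∧ F ∉ germ (x e) (f (p e))) :
    β' * Y.card ≤ E'.card := by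
  classical
  have hTT : b ^ k₁ + b ^ (k₁ - k) * b ^ k = 2 * b ^ k₁ := by
    rw [← pow_add, Nat.sub_add_cancel hkk]; ring
  refine (isFilt_total (k := K) (σ := σ)).good_num p x E' f
    (fun e he j => (mem_van.1 (hf (p e) j)).2 e (Finset.mem_filter.2 ⟨he, rfl⟩)) hind
    (T := b ^ k) (T' := b ^ k₁) (J := b ^ (k₁ - k))
    (E := b ^ (∑ k ∈ range k₁, (Fintype.card σ - v k))) (Nat.one_le_pow _ _ hb) ?_
    (fun B hB hc => by
      obtain ⟨e, he, h⟩ := hL B hB hc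
      rw [pts_eq] at h
      exact ⟨e, he, h⟩) hJ Y hYE ?_
  · intro s Z hZ
    rw [hTT]
    refine fam_up b hb k₀ k₁ hk v hv hconst hvN x Z (f s) (fun j => (mem_van.1 (hf s j)).1) ?_ ?_
    · intro e he j
      exact (mem_van.1 (hf s j)).2 e (hZ he)
    · intro e he
      obtain ⟨h1, h2⟩ := Finset.mem_filter.1 (hZ he)
      rw [← h2]
      exact hind e h1
  · intro e he
    obtain ⟨F, h1, h2, h3⟩ := hY e he
    exact ⟨F, (mem_restrictTotalDegree _ _ _).2 h1, h2, h3⟩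

end

section hats

variable {γ ρ K ι S : Type*} [Field K] [Fintype γ] [Fintype ρ] [DecidableEq γ] [DecidableEq ρ]

/-- **[GOOD] along the window of the hats**, at the level `b ^ (k₀ + i)`. -/
theorem hat_good [Infinite K] [DecidableEq S] (p : ι → S) (x : ι → γ ⊕ ρ → K) (E' : Finset ι)
    (b : ℕ) (hb : 1 ≤ b) (k₀ i₀ i₁ : ℕ) (hi : i₀ ≤ i₁) (v v' : ℕ → ℕ)
    (hv : ∀ k l : ℕ, k ≤ l → l ≤ k₀ → v k ≤ v l)
    (hv' : ∀ k l : ℕ, k ≤ l → l ≤ i₀ → v' k ≤ v' l)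
    (hconst : ∀ i, i₀ ≤ i → i < i₁ → v' i = v' i₀)
    {c m : ℕ} (hc : v k₀ = c) (hm : v' i₀ = c + m) (hge : ∀ i ≤ i₀, c ≤ v' i)
    (hcγ : c ≤ Fintype.card γ) (hmN : c + m ≤ Fintype.card γ + Fintype.card ρ)
    (f : S → Fin (c + m) → MvPolynomial (γ ⊕ ρ) K)
    (hd : ∀ s, ∀ j : Fin c, f s (Fin.castAdd m j) ∈ van x (E'.filter (fun a => p a = s))
      (Vw K (wh γ ρ (b ^ k₀)) (b ^ kap (k₀ + 1) v j)))
    (hd' : ∀ s, ∀ j : Fin m, f s (Fin.natAdd c j) ∈ van x (E'.filter (fun a => p a = s))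
      (Vw K (wh γ ρ (b ^ k₀)) (b ^ (k₀ + kap (i₀ + 1) v' (c + j)))))
    (hind : ∀ e ∈ E', LinearIndependent K (fun j => H930.grad (x e) (f (p e) j)))
    {Λ β' : ℕ}
    (hL : ∀ B ⊆ E', E'.card < β' * B.card →
      ∃ e ∈ B, b ^ (∑ k ∈ range k₀, (Fintype.card γ - v k) +
          ∑ i ∈ range i₁, (Fintype.card γ + Fintype.card ρ - v' i)) ≤
        Λ * rkF (Vw K (wh γ ρ (b ^ k₀))) (pts x (B.filter (fun a => p a = p e)))
          (b ^ (k₀ + i₁)))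
    (i : ℕ) (hii : i ≤ i₁)
    (hJ : (2 * (Fintype.card γ + Fintype.card ρ + 2)) ^ (Fintype.card γ + Fintype.card ρ) * Λ <
      b ^ (i₁ - i))
    (Y : Finset ι) (hYE : Y ⊆ E')
    (hY : ∀ e ∈ Y, ∃ F ∈ Vw K (wh γ ρ (b ^ k₀)) (b ^ (k₀ + i)),
      (∀ a ∈ E', p a = p e → eval (x a) F = 0) ∧ F ∉ germ (x e) (f (p e))) :
    β' * Y.card ≤ E'.card := by
  classical
  have hw : ∀ i, wh γ ρ (b ^ k₀) i ≠ 0 := by
    rintro (i | i)
    · exact one_ne_zero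
    · exact (Nat.pow_pos (n := k₀) hb).ne'
  have hTT : b ^ (k₀ + i₁) + b ^ (i₁ - i) * b ^ (k₀ + i) = 2 * b ^ (k₀ + i₁) := by
    rw [← pow_add, show i₁ - i + (k₀ + i) = k₀ + i₁ by omega]; ring
  have hmem : ∀ s, ∀ j : Fin (c + m), ∀ a ∈ E'.filter (fun a => p a = s),
      eval (x a) (f s j) = 0 := by
    intro s j a ha
    refine Fin.addCases (fun j => ?_) (fun j => ?_) j
    · exact (mem_van.1 (hd s j)).2 a ha
    · exact (mem_van.1 (hd' s j)).2 a ha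
  refine (isFilt_Vw (k := K) (wh γ ρ (b ^ k₀)) hw).good_num p x E' f
    (fun e he j => hmem (p e) j e (Finset.mem_filter.2 ⟨he, rfl⟩)) hind
    (T := b ^ (k₀ + i)) (T' := b ^ (k₀ + i₁)) (J := b ^ (i₁ - i))
    (E := b ^ (∑ k ∈ range k₀, (Fintype.card γ - v k) +
          ∑ i ∈ range i₁, (Fintype.card γ + Fintype.card ρ - v' i)))
    (Nat.one_le_pow _ _ hb) ?_
    (fun B hB hc => by
      obtain ⟨e, he, h⟩ := hL B hB hc
      rw [pts_eq] at h
      exact ⟨e, he, h⟩) hJ Y hYE hY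
  intro s Z hZ
  rw [hTT]
  refine hat_up b hb k₀ i₀ i₁ hi v v' hv hv' hconst hc hm hge hcγ hmN x Z (f s)
    (fun j => (mem_van.1 (hd s j)).1) (fun j => (mem_van.1 (hd' s j)).1) ?_ ?_
  · intro e he j
    exact hmem s j e (hZ he)
  · intro e he
    obtain ⟨h1, h2⟩ := Finset.mem_filter.1 (hZ he)
    rw [← h2]
    exact hind e h1

/-- **lower bound for the hats** from (LO) for the edges up to `b ^ k₀` and (LO) for the hats
along the path from `b ^ k₀` to `b ^ (k₀ + i₁)`.  `xg e = x e ∘ inl`. -/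
theorem hat_lower (x : ι → γ ⊕ ρ → K) (b : ℕ) (hb : 1 ≤ b) (k₀ i₁ : ℕ) (S₁ S₂ Λ₁ Λ₂ : ℕ)
    (A A' A'' : Finset ι) (hne : A''.Nonempty)
    (h1 : b ^ S₁ * rkF (restrictTotalDegree γ K) (pts (fun e => x e ∘ Sum.inl) A'') 1 ≤
      Λ₁ * rkF (restrictTotalDegree γ K) (pts (fun e => x e ∘ Sum.inl) A') (b ^ k₀))
    (h2 : b ^ S₂ * rkF (Vw K (wh γ ρ (b ^ k₀))) (pts x A') (b ^ k₀) ≤
      Λ₂ * rkF (Vw K (wh γ ρ (b ^ k₀))) (pts x A) (b ^ (k₀ + i₁))) :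
    b ^ (S₁ + S₂) ≤ (Λ₁ * Λ₂) * rkF (Vw K (wh γ ρ (b ^ k₀))) (pts x A) (b ^ (k₀ + i₁)) := by
  classical
  have hw : ∀ i, wh γ ρ (b ^ k₀) i ≠ 0 := by
    rintro (i | i)
    · exact one_ne_zero
    · exact (Nat.pow_pos (n := k₀) hb).ne'
  have hproj : rkF (restrictTotalDegree γ K) (pts (fun e => x e ∘ Sum.inl) A') (b ^ k₀) ≤
      rkF (Vw K (wh γ ρ (b ^ k₀))) (pts x A') (b ^ k₀) := by
    rw [pts_eq, pts_eq]
    refine rkF_proj_le _ _ Sum.inl (finite_Vw _ hw _) (fun F hF => ?_) x A'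
    exact rename_mem_Vw_of_total (wh γ ρ (b ^ k₀)) Sum.inl (fun _ => rfl) hF
  have hpos : 1 ≤ rkF (restrictTotalDegree γ K) (pts (fun e => x e ∘ Sum.inl) A'') 1 := by
    obtain ⟨e, he⟩ := hne
    have hz : x e ∘ Sum.inl ∈ pts (fun e => x e ∘ Sum.inl) A'' := mem_pts.2 ⟨e, he, rfl⟩
    have hfin : Module.Finite K ((restrictTotalDegree γ K 1).map
      (H441.resA (pts (fun e => x e ∘ Sum.inl) A'')).toLinearMap) := inferInstance
    unfold rkF
    rw [Nat.one_le_iff_ne_zero, Ne, Submodule.finrank_eq_zero]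
    intro hbot
    have h3 : (H441.resA (pts (fun e => x e ∘ Sum.inl) A'')).toLinearMap 1 ∈
        (restrictTotalDegree γ K 1).map
          (H441.resA (pts (fun e => x e ∘ Sum.inl) A'')).toLinearMap :=
      Submodule.mem_map_of_mem ((mem_restrictTotalDegree _ _ _).2 (by simp))
    rw [hbot, Submodule.mem_bot] at h3
    have h4 := congrFun h3 ⟨_, hz⟩
    have h5 : (H441.resA (pts (fun e => x e ∘ Sum.inl) A'')).toLinearMap
        (1 : MvPolynomial γ K) = 1 := map_one (H441.resA (pts (fun e => x e ∘ Sum.inl) A''))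
    rw [h5] at h4
    exact one_ne_zero h4
  calc b ^ (S₁ + S₂) = b ^ S₂ * (b ^ S₁ * 1) := by rw [pow_add]; ring
    _ ≤ b ^ S₂ * (b ^ S₁ *
        rkF (restrictTotalDegree γ K) (pts (fun e => x e ∘ Sum.inl) A'') 1) :=
        Nat.mul_le_mul_left _ (Nat.mul_le_mul_left _ hpos)
    _ ≤ b ^ S₂ * (Λ₁ * rkF (restrictTotalDegree γ K) (pts (fun e => x e ∘ Sum.inl) A')
        (b ^ k₀)) := Nat.mul_le_mul_left _ h1
    _ ≤ b ^ S₂ * (Λ₁ * rkF (Vw K (wh γ ρ (b ^ k₀))) (pts x A') (b ^ k₀)) :=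
        Nat.mul_le_mul_left _ (Nat.mul_le_mul_left _ hproj)
    _ = Λ₁ * (b ^ S₂ * rkF (Vw K (wh γ ρ (b ^ k₀))) (pts x A') (b ^ k₀)) := by ring
    _ ≤ Λ₁ * (Λ₂ * rkF (Vw K (wh γ ρ (b ^ k₀))) (pts x A) (b ^ (k₀ + i₁))) :=
        Nat.mul_le_mul_left _ h2
    _ = _ := by ring

end hats

end Vale.Agent.P054.T2.H580
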