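import Vale.Agent.P054.T2.H580.Cont

/-!
# P054 / T2: the upper bound (U) for germs, by a chain of ideals

`hilb I n` = dimension of the polynomials of degree `≤ n` modulo the ideal `I`.
-/

open MvPolynomial Finset Module

namespace Vale.Agent.P054.T2.H580

variable {k : Type*} [Field k] {σ : Type*}

/-- dimension of the polynomials of degree `≤ n` modulo `I` -/
noncomputable def hilb (I : Ideal (MvPolynomial σ k)) (n : ℕ) : ℕ :=
  finrank k ((restrictTotalDegree σ k n).map (Ideal.Quotient.mkₐ k I).toLinearMap)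

instance finite_restrict [Finite σ] (n : ℕ) : Module.Finite k (restrictTotalDegree σ k n) := by
  classical
  have := Fintype.ofFinite σ
  have hsum : ∀ (s : σ →₀ ℕ), s.sum (fun _ e => e) ≤ n → ∀ i, s i < n + 1 := by
    intro s hs i
    rcases eq_or_ne (s i) 0 with h | h
    · omega
    · have := (Finset.single_le_sum (f := fun i => s i) (fun _ _ ↦ Nat.zero_le _) <|
        Finsupp.mem_support_iff.mpr h).trans hs
      omega
  let g : {s : σ →₀ ℕ | s.sum (fun _ e ↦ e) ≤ n} → (σ → Fin (n + 1)) :=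
    fun s i => ⟨s.1 i, hsum s.1 s.2 i⟩
  have hg : Function.Injective g := by
    intro s t h
    apply Subtype.ext
    ext i
    have := congrFun h i
    simpa [g] using this
  have : Finite {s : σ →₀ ℕ | s.sum (fun _ e ↦ e) ≤ n} := Finite.of_injective g hg
  exact Module.Finite.of_basis (basisRestrictSupport k {s : σ →₀ ℕ | s.sum (fun _ e ↦ e) ≤ n})

theorem finrank_restrict_le [Fintype σ] (n : ℕ) :
    finrank k (restrictTotalDegree σ k n) ≤ (n + 1) ^ Fintype.card σ := by
  classical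
  have hsum : ∀ (s : σ →₀ ℕ), s.sum (fun _ e => e) ≤ n → ∀ i, s i < n + 1 := by
    intro s hs i
    rcases eq_or_ne (s i) 0 with h | h
    · omega
    · have := (Finset.single_le_sum (f := fun i => s i) (fun _ _ ↦ Nat.zero_le _) <|
        Finsupp.mem_support_iff.mpr h).trans hs
      omega
  let g : {s : σ →₀ ℕ | s.sum (fun _ e ↦ e) ≤ n} → (σ → Fin (n + 1)) :=
    fun s i => ⟨s.1 i, hsum s.1 s.2 i⟩
  have hg : Function.Injective g := by
    intro s t h
    apply Subtype.ext
    ext i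
    have := congrFun h i
    simpa [g] using this
  have : Finite {s : σ →₀ ℕ | s.sum (fun _ e ↦ e) ≤ n} := Finite.of_injective g hg
  have hb := Module.finrank_eq_nat_card_basis
    (basisRestrictSupport k {s : σ →₀ ℕ | s.sum (fun _ e ↦ e) ≤ n})
  have h2 : Nat.card {s : σ →₀ ℕ | s.sum (fun _ e ↦ e) ≤ n} ≤ Nat.card (σ → Fin (n + 1)) :=
    Nat.card_le_card_of_injective g hg
  rw [Nat.card_fun, Nat.card_fin, Nat.card_eq_fintype_card (α := σ)] at h2
  exact hb.le.trans h2

section step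
variable [Finite σ]

theorem hilb_le_finrank (I : Ideal (MvPolynomial σ k)) (n : ℕ) :
    hilb I n ≤ finrank k (restrictTotalDegree σ k n) :=
  Submodule.finrank_map_le _ _

theorem hilb_mono_right (I : Ideal (MvPolynomial σ k)) {m n : ℕ} (h : m ≤ n) :
    hilb I m ≤ hilb I n := by
  refine Submodule.finrank_mono (Submodule.map_mono ?_)
  intro p hp
  rw [mem_restrictTotalDegree] at hp ⊢
  exact hp.trans h

omit [Finite σ] in
theorem map_factor {I J : Ideal (MvPolynomial σ k)} (h : I ≤ J)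
    (V : Submodule k (MvPolynomial σ k)) :
    (V.map (Ideal.Quotient.mkₐ k I).toLinearMap).map
      (Ideal.Quotient.factorₐ k h).toLinearMap = V.map (Ideal.Quotient.mkₐ k J).toLinearMap := by
  rw [← Submodule.map_comp]
  congr 1

theorem hilb_anti {I J : Ideal (MvPolynomial σ k)} (h : I ≤ J) (n : ℕ) : hilb J n ≤ hilb I n := by
  unfold hilb
  rw [← map_factor h]
  exact Submodule.finrank_map_le _ _

/-- **one step**: `f` of degree `≤ d` in `J`, a nonzerodivisor mod `I ≤ J`. -/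
theorem hilb_step {I J : Ideal (MvPolynomial σ k)} (hIJ : I ≤ J) (f : MvPolynomial σ k)
    (hfJ : f ∈ J) (hf : ∀ g, f * g ∈ I → g ∈ I) (d : ℕ) (hd : f.totalDegree ≤ d) (n : ℕ)
    (hn : d ≤ n) : hilb J n + hilb I (n - d) ≤ hilb I n := by
  set A := (restrictTotalDegree σ k n).map (Ideal.Quotient.mkₐ k I).toLinearMap with hA
  set A' := (restrictTotalDegree σ k (n - d)).map (Ideal.Quotient.mkₐ k I).toLinearMap with hA'
  let φ : (MvPolynomial σ k ⧸ I) →ₗ[k] (MvPolynomial σ k ⧸ J) :=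
    (Ideal.Quotient.factorₐ k hIJ).toLinearMap
  let μ : (MvPolynomial σ k ⧸ I) →ₗ[k] (MvPolynomial σ k ⧸ I) :=
    LinearMap.mulLeft k (Ideal.Quotient.mk I f)
  have hμ : Function.Injective μ := by
    rw [injective_iff_map_eq_zero]
    intro x hx
    obtain ⟨g, rfl⟩ := Ideal.Quotient.mk_surjective x
    have h1 : Ideal.Quotient.mk I (f * g) = 0 := by
      rw [map_mul]; exact hx
    exact Ideal.Quotient.eq_zero_iff_mem.2 (hf g (Ideal.Quotient.eq_zero_iff_mem.1 h1))
  have hK1 : A'.map μ ≤ A := by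
    rintro _ ⟨x, ⟨g, hg, rfl⟩, rfl⟩
    refine ⟨f * g, ?_, ?_⟩
    · have hg' : g.totalDegree ≤ n - d := (mem_restrictTotalDegree _ _ _).1 hg
      refine (mem_restrictTotalDegree _ _ _).2 ?_
      have := totalDegree_mul f g
      omega
    · change Ideal.Quotient.mk I (f * g) = Ideal.Quotient.mk I f * Ideal.Quotient.mk I g
      exact map_mul _ _ _
  have hK2 : A'.map μ ≤ LinearMap.ker φ := by
    rintro _ ⟨x, ⟨g, hg, rfl⟩, rfl⟩
    rw [LinearMap.mem_ker]
    change (Ideal.Quotient.factorₐ k hIJ) (Ideal.Quotient.mk I f * Ideal.Quotient.mk I g) = 0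
    rw [map_mul]
    have : (Ideal.Quotient.factorₐ k hIJ) (Ideal.Quotient.mk I f) = 0 :=
      Ideal.Quotient.eq_zero_iff_mem.2 hfJ
    rw [this, zero_mul]
  have h1 : finrank k (A'.map μ) = finrank k A' :=
    (Submodule.equivMapOfInjective μ hμ A').finrank_eq.symm
  let ψ : A →ₗ[k] (MvPolynomial σ k ⧸ J) := φ.domRestrict A
  have h2 := LinearMap.finrank_range_add_finrank_ker ψ
  have h3 : finrank k (LinearMap.range ψ) = hilb J n := by
    have : LinearMap.range ψ = A.map φ := by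
      ext x
      constructor
      · rintro ⟨y, rfl⟩; exact ⟨y.1, y.2, rfl⟩
      · rintro ⟨y, hy, rfl⟩; exact ⟨⟨y, hy⟩, rfl⟩
    rw [this, hA, map_factor hIJ]
    rfl
  have h4 : finrank k (A'.map μ) ≤ finrank k (LinearMap.ker ψ) := by
    have h5 : A'.map μ ≤ (LinearMap.ker ψ).map A.subtype := by
      intro x hx
      refine ⟨⟨x, hK1 hx⟩, ?_, rfl⟩
      exact LinearMap.mem_ker.2 (LinearMap.mem_ker.1 (hK2 hx))
    exact (Submodule.finrank_mono h5).trans (Submodule.finrank_map_le _ _)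
  change hilb J n + finrank k A' ≤ finrank k A
  omega

theorem hilb_mul_le {I J : Ideal (MvPolynomial σ k)} (hIJ : I ≤ J) (f : MvPolynomial σ k)
    (hfJ : f ∈ J) (hf : ∀ g, f * g ∈ I → g ∈ I) (d : ℕ) (hd : f.totalDegree ≤ d) (n i : ℕ) :
    (i + 1) * hilb J n ≤ hilb I (n + i * d) := by
  induction i with
  | zero => simpa using hilb_anti hIJ n
  | succ i ih =>
    have h1 := hilb_step hIJ f hfJ hf d hd (n + (i + 1) * d) (by nlinarith)
    have h2 : n + (i + 1) * d - d = n + i * d := by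
      have : (i + 1) * d = i * d + d := by ring
      omega
    rw [h2] at h1
    have h3 := hilb_mono_right J (show n ≤ n + (i + 1) * d by omega)
    calc (i + 1 + 1) * hilb J n = hilb J n + (i + 1) * hilb J n := by ring
      _ ≤ hilb J (n + (i + 1) * d) + hilb I (n + i * d) := Nat.add_le_add h3 ih
      _ ≤ _ := h1

/-- `(T + 1) * hilb J n ≤ d * hilb I (n + T)` -/
theorem hilb_step' {I J : Ideal (MvPolynomial σ k)} (hIJ : I ≤ J) (f : MvPolynomial σ k)
    (hfJ : f ∈ J) (hf : ∀ g, f * g ∈ I → g ∈ I) (d : ℕ) (hd1 : 1 ≤ d) (hd : f.totalDegree ≤ d)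
    (n T : ℕ) : (T + 1) * hilb J n ≤ d * hilb I (n + T) := by
  set i := T / d with hi
  have h1 : T < d * (i + 1) := Nat.lt_mul_div_succ T (by omega)
  have h2 : i * d ≤ T := Nat.div_mul_le_self T d
  calc (T + 1) * hilb J n ≤ (d * (i + 1)) * hilb J n := Nat.mul_le_mul_right _ h1
    _ = d * ((i + 1) * hilb J n) := by ring
    _ ≤ d * hilb I (n + i * d) := Nat.mul_le_mul_left _ (hilb_mul_le hIJ f hfJ hf d hd n i)
    _ ≤ d * hilb I (n + T) := Nat.mul_le_mul_left _ (hilb_mono_right I (by omega))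

/-- chain of ideals -/
theorem hilb_chain (I : ℕ → Ideal (MvPolynomial σ k)) (c : ℕ) (hI : ∀ j < c, I j ≤ I (j + 1))
    (f : ℕ → MvPolynomial σ k) (hfI : ∀ j < c, f j ∈ I (j + 1))
    (hf : ∀ j < c, ∀ g, f j * g ∈ I j → g ∈ I j) (d : ℕ → ℕ) (hd1 : ∀ j < c, 1 ≤ d j)
    (hd : ∀ j < c, (f j).totalDegree ≤ d j) (n T : ℕ) :
    (T + 1) ^ c * hilb (I c) n ≤ (∏ j ∈ range c, d j) * hilb (I 0) (n + c * T) := by
  induction c generalizing n with
  | zero => simp
  | succ c ih =>
    have h1 := hilb_step' (hI c (by omega)) (f c) (hfI c (by omega)) (hf c (by omega)) (d c)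
      (hd1 c (by omega)) (hd c (by omega)) n T
    have h2 := ih (fun j hj => hI j (by omega)) (fun j hj => hfI j (by omega))
      (fun j hj => hf j (by omega)) (fun j hj => hd1 j (by omega)) (fun j hj => hd j (by omega))
      (n + T)
    rw [Finset.prod_range_succ]
    calc (T + 1) ^ (c + 1) * hilb (I (c + 1)) n
        = (T + 1) ^ c * ((T + 1) * hilb (I (c + 1)) n) := by ring
      _ ≤ (T + 1) ^ c * (d c * hilb (I c) (n + T)) := Nat.mul_le_mul_left _ h1
      _ = d c * ((T + 1) ^ c * hilb (I c) (n + T)) := by ring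
      _ ≤ d c * ((∏ j ∈ range c, d j) * hilb (I 0) (n + T + c * T)) := Nat.mul_le_mul_left _ h2
      _ = (∏ j ∈ range c, d j) * d c * hilb (I 0) (n + (c + 1) * T) := by
          rw [show n + T + c * T = n + (c + 1) * T by ring]; ring

omit [Finite σ] in
/-- a polynomial outside all the primes is a nonzerodivisor modulo their intersection -/
theorem nzd_iInf {ι : Type*} (G : Finset ι) (P : ι → Ideal (MvPolynomial σ k))
    (hP : ∀ i ∈ G, (P i).IsPrime) (f : MvPolynomial σ k) (hf : ∀ i ∈ G, f ∉ P i) :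
    ∀ g, f * g ∈ (⨅ i ∈ G, P i) → g ∈ (⨅ i ∈ G, P i) := by
  intro g hg
  simp only [Submodule.mem_iInf] at hg ⊢
  intro i hi
  exact ((hP i hi).mem_or_mem (hg i hi)).resolve_left (hf i hi)

/-- **(U) for germs**: chains of primes `P 0 i ≤ P 1 i ≤ ... ≤ P c i`, one for each point `i` of
`G`, `f j ∈ P (j+1) i`, `f j ∉ P j i`. -/
theorem hilb_primes {ι : Type*} (G : Finset ι) (P : ℕ → ι → Ideal (MvPolynomial σ k)) (c : ℕ)
    (hP : ∀ j < c, ∀ i ∈ G, (P j i).IsPrime) (hmono : ∀ j < c, ∀ i ∈ G, P j i ≤ P (j + 1) i)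
    (f : ℕ → MvPolynomial σ k) (hf : ∀ j < c, ∀ i ∈ G, f j ∈ P (j + 1) i)
    (hf' : ∀ j < c, ∀ i ∈ G, f j ∉ P j i) (d : ℕ → ℕ) (hd1 : ∀ j < c, 1 ≤ d j)
    (hd : ∀ j < c, (f j).totalDegree ≤ d j) (n T : ℕ) :
    (T + 1) ^ c * hilb (⨅ i ∈ G, P c i) n ≤
      (∏ j ∈ range c, d j) * finrank k (restrictTotalDegree σ k (n + c * T)) := by
  refine (hilb_chain (fun j => ⨅ i ∈ G, P j i) c (fun j hj => ?_) f (fun j hj => ?_)
    (fun j hj => ?_) d hd1 hd n T).trans (Nat.mul_le_mul_left _ (hilb_le_finrank _ _))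
  · exact iInf₂_mono fun i hi => hmono j hj i hi
  · simp only [Submodule.mem_iInf]
    exact fun i hi => hf j hj i hi
  · exact nzd_iInf G (P j) (hP j hj) (f j) (hf' j hj)

end step

/-- **(U) for germs**, numerical form: `(T+1)^c hilb ≤ ((c+1)(T+1))^N ∏ d`. -/
theorem hilb_primes_le [Fintype σ] {ι : Type*} (G : Finset ι)
    (P : ℕ → ι → Ideal (MvPolynomial σ k)) (c : ℕ)
    (hP : ∀ j < c, ∀ i ∈ G, (P j i).IsPrime) (hmono : ∀ j < c, ∀ i ∈ G, P j i ≤ P (j + 1) i)
    (f : ℕ → MvPolynomial σ k) (hf : ∀ j < c, ∀ i ∈ G, f j ∈ P (j + 1) i)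
    (hf' : ∀ j < c, ∀ i ∈ G, f j ∉ P j i) (d : ℕ → ℕ) (hd1 : ∀ j < c, 1 ≤ d j)
    (hd : ∀ j < c, (f j).totalDegree ≤ d j) (T : ℕ) (hc : c ≤ Fintype.card σ) :
    hilb (⨅ i ∈ G, P c i) T ≤
      (∏ j ∈ range c, d j) * ((c + 1) ^ Fintype.card σ * (T + 1) ^ (Fintype.card σ - c)) := by
  have h1 := hilb_primes G P c hP hmono f hf hf' d hd1 hd T T
  have h2 := finrank_restrict_le (k := k) (σ := σ) (T + c * T)
  have h3 : (T + c * T + 1) ^ Fintype.card σ ≤ ((c + 1) * (T + 1)) ^ Fintype.card σ :=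
    Nat.pow_le_pow_left (by nlinarith) _
  have h4 : (T + 1) ^ c * hilb (⨅ i ∈ G, P c i) T ≤ (T + 1) ^ c *
      ((∏ j ∈ range c, d j) * ((c + 1) ^ Fintype.card σ * (T + 1) ^ (Fintype.card σ - c))) := by
    calc _ ≤ (∏ j ∈ range c, d j) * ((c + 1) * (T + 1)) ^ Fintype.card σ :=
          h1.trans (Nat.mul_le_mul_left _ (h2.trans h3))
      _ = _ := by
          rw [mul_pow]
          conv_lhs => rw [show Fintype.card σ = c + (Fintype.card σ - c) by omega]
          rw [pow_add (T + 1)]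
          conv_rhs => rw [show Fintype.card σ = c + (Fintype.card σ - c) by omega]
          rw [show c + (Fintype.card σ - c) - c = Fintype.card σ - c by omega]
          ring
  exact Nat.le_of_mul_le_mul_left h4 (pow_pos (Nat.succ_pos T) c)

/-- evaluation functional on polynomials of degree `≤ n` -/
noncomputable def evd (n : ℕ) (z : σ → k) : Module.Dual k (restrictTotalDegree σ k n) :=
  (aeval z).toLinearMap ∘ₗ (restrictTotalDegree σ k n).subtype

/-- rank of a finite set of points at which `I` vanishes. -/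
theorem rk_evd_le_hilb [Finite σ] {ι : Type*} (I : Ideal (MvPolynomial σ k)) (p : ι → (σ → k))
    (G : Finset ι) (hI : ∀ i ∈ G, ∀ F ∈ I, eval (p i) F = 0) (n : ℕ) :
    rk k (fun i => evd n (p i)) G ≤ hilb I n := by
  set V := restrictTotalDegree σ k n with hV
  let q : V →ₗ[k] (MvPolynomial σ k ⧸ I) := (Ideal.Quotient.mkₐ k I).toLinearMap ∘ₗ V.subtype
  have h1 := LinearMap.finrank_range_add_finrank_ker q
  have h2 : finrank k (LinearMap.range q) = hilb I n := by
    have : LinearMap.range q = V.map (Ideal.Quotient.mkₐ k I).toLinearMap := by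
      rw [LinearMap.range_comp, Submodule.range_subtype]
    rw [this]; rfl
  have h3 := Subspace.finrank_add_finrank_dualAnnihilator_eq (LinearMap.ker q)
  have h4 : Submodule.span k ((fun i => evd n (p i)) '' (G : Set ι)) ≤
      (LinearMap.ker q).dualAnnihilator := by
    rw [Submodule.span_le]
    rintro _ ⟨i, hi, rfl⟩
    rw [SetLike.mem_coe, Submodule.mem_dualAnnihilator]
    intro F hF
    have h5 : (F : MvPolynomial σ k) ∈ I := by
      have : Ideal.Quotient.mk I (F : MvPolynomial σ k) = 0 := hF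
      exact Ideal.Quotient.eq_zero_iff_mem.1 this
    change aeval (p i) (F : MvPolynomial σ k) = 0
    have h7 := hI i (by exact_mod_cast hi) _ h5
    rw [← MvPolynomial.coe_aeval_eq_eval] at h7
    exact h7
  have h6 := Submodule.finrank_mono h4
  have h8 : finrank k (LinearMap.ker q).dualAnnihilator = hilb I n := by omega
  exact h6.trans (le_of_eq h8)

end Vale.Agent.P054.T2.H580
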