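import Vale.Agent.P054.T2.H580.UniHat
import Vale.Agent.P054.T2.H307.Fam

/-!
# P054 / T2: systems, lower bounds and [GOOD] for the families of `H307/Fam.lean`
-/

set_option linter.unusedSectionVars false

open MvPolynomial Module Finset

namespace Vale.Agent.P054.T2.H580

open H930 (germ Pt ptc edgePt)
open H686 (Crd leaf mu meet)
open H307 (van pts mem_van mem_pts van_mono IsUnif IsFam IsFamL gfr core core_subset core_anti
  core_zero fib mem_fib fib_mono fib_subset self_mem_fib fib_unit gr gsp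
  FI Ed cA cA_mono JA NN xF xL xH1 xH2 xT wB)

/-- **one bag of numbers for all families** -/
theorem exists_par (N L K₀ q nJ : ℕ) (hL : 0 < L) :
    ∃ C₁ β₀ : ℕ, ∀ β, β₀ ≤ β → ∃ k, Par N k β C₁ L K₀ q nJ := by
  set D := q * (K₀ * L * nJ) + N + 3 with hD
  set Z := (2 * (N + 2)) ^ N * (D ^ N * N.factorial) ^ (2 * K₀) with hZ
  refine ⟨D, max Z D, fun β hβ => ⟨β / D, ?_⟩⟩
  have hD0 : 0 < D := by omega
  have hDβ : D ≤ β := (le_max_right _ _).trans hβ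
  have hk : 0 < β / D := Nat.div_pos hDβ hD0
  have hmul : β / D * D ≤ β := Nat.div_mul_le_self β D
  refine ⟨hk, hL, ?_, ?_, by omega, ?_, (le_max_left _ _).trans hβ⟩
  · have h1 : β / D * (N + 3) ≤ β / D * D := Nat.mul_le_mul_left _ (by omega)
    have h2 : β / D * (N + 3) = β / D * (N + 2) + β / D := by ring
    omega
  · exact (Nat.lt_mul_div_succ β hD0).le
  · calc q * (K₀ * (L * (β / D)) * nJ) = β / D * (q * (K₀ * L * nJ)) := by ring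
      _ ≤ β / D * D := Nat.mul_le_mul_left _ (by omega)
      _ ≤ β := hmul

/-- monotone in the density number -/
theorem Par.mono_q {N k β C₁ L K₀ q nJ : ℕ} (h : Par N k β C₁ L K₀ q nJ) {q' : ℕ} (hq : q' ≤ q) :
    Par N k β C₁ L K₀ q' nJ :=
  ⟨h.hk, h.hL, h.hβ, h.hC, h.hC1, (Nat.mul_le_mul_right _ hq).trans h.hq, h.hconst⟩

variable {n : ℕ} {K : Type*} [Field K] [CharZero K] [Infinite K]

/-- a uniform set of edges for all families of `H307/Fam.lean`, levels `≤ K'`, base `b = β ^ L` -/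
structure US (n : ℕ) (K : Type*) [Field K] (k β C₁ L K' q : ℕ) (E' : Finset (Ed n K))
    (v : FI × ℕ → ℕ) : Prop where
  par : Par (NN n) k β C₁ L K' q (JA K').card
  unif : IsUnif (cA n K (β ^ L)) (JA K') β E' v
  ne : E'.Nonempty

theorem card_Crd_le (n : ℕ) : Fintype.card (Crd n) ≤ NN n := by
  have hC : Fintype.card (Crd n) = 2 * n + 1 := by simp [Crd]; ring
  unfold NN
  omega

theorem card_Fin_le (n : ℕ) : Fintype.card (Fin n) ≤ NN n := by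
  rw [Fintype.card_fin]
  unfold NN
  omega

theorem card_H_le (n : ℕ) : Fintype.card (Crd n) + Fintype.card (Pt n) ≤ NN n := by
  have hC : Fintype.card (Crd n) = 2 * n + 1 := by simp [Crd]; ring
  have hP : Fintype.card (Pt n) = 2 * n + 2 := by simp [Pt]; ring
  unfold NN
  omega

theorem card_T_le (n : ℕ) : Fintype.card (Crd n) + Fintype.card (Pt n ⊕ Pt n) ≤ NN n := by
  have hC : Fintype.card (Crd n) = 2 * n + 1 := by simp [Crd]; ring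
  have hP : Fintype.card (Pt n) = 2 * n + 2 := by simp [Pt]; ring
  have hPP : Fintype.card (Pt n ⊕ Pt n) = Fintype.card (Pt n) + Fintype.card (Pt n) :=
    Fintype.card_sum
  rw [hPP, hC, hP]
  unfold NN
  omega

theorem xH1_inl (e : Ed n K) : xH1 e ∘ Sum.inl = xF e := rfl
theorem xH2_inl (e : Ed n K) : xH2 e ∘ Sum.inl = xF e := rfl
theorem xT_inl (e : Ed n K) : xT e ∘ Sum.inl = xF e := rfl

namespace US

variable {k β C₁ L K' q : ℕ} {E' : Finset (Ed n K)} {v : FI × ℕ → ℕ}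
  (U : US n K k β C₁ L K' q E' v)
include U

theorem mono : ∀ j ∈ JA K', ∀ A B : Finset (Ed n K), A ⊆ B → B ⊆ E' → ∀ e ∈ A,
    cA n K (β ^ L) j B e ≤ cA n K (β ^ L) j A e :=
  fun j _ _ _ h _ e _ => cA_mono (β ^ L) j h e

theorem famF : IsFam (cA n K (β ^ L)) (JA K') (fun i => (FI.F, i)) K' xF (fun _ => ())
    (restrictTotalDegree (Crd n) K) 1 (β ^ L) := H307.isFam_F (β ^ L) K'

theorem famL1 : IsFam (cA n K (β ^ L)) (JA K') (fun i => (FI.L1, i)) K' xL Prod.fst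
    (restrictTotalDegree (Fin n) K) 1 (β ^ L) := H307.isFam_L1 (β ^ L) K'

theorem famL2 : IsFam (cA n K (β ^ L)) (JA K') (fun i => (FI.L2, i)) K' xL Prod.snd
    (restrictTotalDegree (Fin n) K) 1 (β ^ L) := H307.isFam_L2 (β ^ L) K'

theorem famH1 (k₀ : ℕ) (hk₀ : k₀ ≤ K') : IsFam (cA n K (β ^ L)) (JA K')
    (fun i => (FI.H1 k₀, i)) K' xH1 (fun _ => ())
    (Vw K (wh (Crd n) (Pt n) ((β ^ L) ^ k₀))) ((β ^ L) ^ k₀) (β ^ L) :=
  H307.isFam_H1 (β ^ L) K' k₀ hk₀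

theorem famH2 (k₀ : ℕ) (hk₀ : k₀ ≤ K') : IsFam (cA n K (β ^ L)) (JA K')
    (fun i => (FI.H2 k₀, i)) K' xH2 (fun _ => ())
    (Vw K (wh (Crd n) (Pt n) ((β ^ L) ^ k₀))) ((β ^ L) ^ k₀) (β ^ L) :=
  H307.isFam_H2 (β ^ L) K' k₀ hk₀

theorem famT (k₀ : ℕ) (hk₀ : k₀ ≤ K') : IsFam (cA n K (β ^ L)) (JA K')
    (fun i => (FI.T k₀, i)) K' xT (fun _ => ())
    (Vw K (wh (Crd n) (Pt n ⊕ Pt n) ((β ^ L) ^ k₀))) ((β ^ L) ^ k₀) (β ^ L) :=
  H307.isFam_T (β ^ L) K' k₀ hk₀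

theorem sub_fam {κ' S' σ' : Type*} {c : κ' → Finset (Ed n K) → Ed n K → ℕ} {J : Finset κ'}
    {idx : ℕ → κ'} {K₁ K₂ : ℕ} (hK : K₂ ≤ K₁) {x : Ed n K → σ' → K} {p : Ed n K → S'}
    {V : ℕ → Submodule K (MvPolynomial σ' K)} {a b : ℕ} (h : IsFam c J idx K₁ x p V a b) :
    IsFam c J idx K₂ x p V a b := fun j hj => h j (hj.trans hK)

/-! ### the edges `F` -/

theorem sysF (k₀ : ℕ) (hk₀ : k₀ ≤ K') :
    ∃ f : Fin (v (FI.F, k₀)) → MvPolynomial (Crd n) K,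
      (∀ j : Fin (v (FI.F, k₀)), f j ∈ van xF E' (restrictTotalDegree (Crd n) K
        ((β ^ L) ^ kap (k₀ + 1) (fun i => v (FI.F, i)) (j : ℕ)))) ∧
      ∀ e ∈ E', LinearIndependent K (fun j => H930.grad (xF e) (f j)) := by
  obtain ⟨f, hf, hind⟩ := fam_sys U.unif U.ne U.par.beta_gt_one (isFilt_total (k := K))
    U.par.b_gt_one.le U.famF k₀ hk₀ ()
  refine ⟨f, fun j => ?_, fun e he => hind e he rfl⟩
  have h1 := hf j
  rwa [one_mul, fib_unit] at h1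

theorem vF_le (k₀ : ℕ) (hk₀ : k₀ ≤ K') : v (FI.F, k₀) ≤ 2 * n + 1 := by
  have h1 := fam_le_card U.unif U.ne U.famF hk₀
  have hC : Fintype.card (Crd n) = 2 * n + 1 := by simp [Crd]; ring
  rwa [hC] at h1

/-- **[GOOD]** for the edges on a dense subset -/
theorem goodF (k₀ k₁ : ℕ) (hk : k₀ ≤ k₁) (hk₁ : k₁ ≤ K')
    (hconst : ∀ i, k₀ ≤ i → i < k₁ → v (FI.F, i) = v (FI.F, k₀))
    (f : Fin (v (FI.F, k₀)) → MvPolynomial (Crd n) K)
    (hf : ∀ j : Fin (v (FI.F, k₀)), f j ∈ van xF E' (restrictTotalDegree (Crd n) K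
      ((β ^ L) ^ kap (k₀ + 1) (fun i => v (FI.F, i)) (j : ℕ))))
    (hind : ∀ e ∈ E', LinearIndependent K (fun j => H930.grad (xF e) (f j)))
    {A : Finset (Ed n K)} (hA : A ⊆ E') {r β' : ℕ} (hr : E'.card ≤ r * A.card)
    (hrq : r * β' ≤ q) (m : ℕ) (hm : m + NN n * NN n + 2 ≤ k₁)
    (Y : Finset (Ed n K)) (hYA : Y ⊆ A)
    (hY : ∀ e ∈ Y, ∃ F : MvPolynomial (Crd n) K, F.totalDegree ≤ (β ^ L) ^ m ∧
      (∀ a ∈ A, eval (xF a) F = 0) ∧ F ∉ germ (xF e) f) :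
    β' * Y.card ≤ A.card :=
  fam_GOOD U.par U.unif U.ne U.mono (card_Crd_le n) le_rfl U.famF k₀ k₁ hk hk₁ hconst
    (fun _ => f) (fun s j => by rw [fib_unit]; exact hf j) hind hA hr hrq m hm Y hYA
    (fun e he => by
      obtain ⟨F, h1, h2, h3⟩ := hY e he
      exact ⟨F, h1, fun a ha _ => h2 a ha, h3⟩)

/-- lower bound for dense sets of edges at the level `b ^ k₁` -/
theorem lowerF (k₁ : ℕ) (hk₁ : k₁ ≤ K') {B : Finset (Ed n K)} (hB : B ⊆ E') {r : ℕ}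
    (hr : r ≤ q) (hd : E'.card < r * B.card) :
    (β ^ L) ^ (∑ i ∈ range k₁, (Fintype.card (Crd n) - v (FI.F, i))) ≤
      (((C₁ ^ (Fintype.card (Crd n)) * (Fintype.card (Crd n)).factorial) ^ L) ^ k₁ *
        (β ^ L) ^ (Fintype.card (Crd n) * Fintype.card (Crd n))) *
        rkF (restrictTotalDegree (Crd n) K) (pts xF B) ((β ^ L) ^ k₁) := by
  obtain ⟨e, he⟩ := core_nonempty U.par U.unif U.mono hB hr hd
  have h1 := fam_lower U.par (isFilt_total (k := K)) (fun m i F hF => by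
      rw [← Vw_one_eq] at hF ⊢
      exact Vw_mono _ (Nat.sub_le _ _) (pderiv_mem_Vw _ hF i))
    (fun i => by rw [← Vw_one_eq]; exact X_mem_Vw _ i) (card_Crd_le n) hk₁
    (sub_fam U hk₁ U.famF) he
  rw [one_mul, fib_unit, fib_unit] at h1
  refine le_trans ?_ h1
  exact Nat.le_mul_of_pos_right _
    (one_le_rkF (isFilt_total (k := K)) (H307.pts_nonempty ⟨e, he⟩) _)

/-! ### the leaves -/

theorem sysL1 (k₀ : ℕ) (hk₀ : k₀ ≤ K') (s : H307.ZK n K) :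
    ∃ f : Fin (v (FI.L1, k₀)) → MvPolynomial (Fin n) K,
      (∀ j : Fin (v (FI.L1, k₀)), f j ∈ van xL (fib Prod.fst E' s)
        (restrictTotalDegree (Fin n) K
          ((β ^ L) ^ kap (k₀ + 1) (fun i => v (FI.L1, i)) (j : ℕ)))) ∧
      ∀ e ∈ E', e.1 = s → LinearIndependent K (fun j => H930.grad (xL e) (f j)) := by
  obtain ⟨f, hf, hind⟩ := fam_sys U.unif U.ne U.par.beta_gt_one (isFilt_total (k := K))
    U.par.b_gt_one.le U.famL1 k₀ hk₀ s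
  refine ⟨f, fun j => ?_, hind⟩
  have h1 := hf j
  rwa [one_mul] at h1

theorem sysL2 (k₀ : ℕ) (hk₀ : k₀ ≤ K') (s : H307.ZK n K) :
    ∃ f : Fin (v (FI.L2, k₀)) → MvPolynomial (Fin n) K,
      (∀ j : Fin (v (FI.L2, k₀)), f j ∈ van xL (fib Prod.snd E' s)
        (restrictTotalDegree (Fin n) K
          ((β ^ L) ^ kap (k₀ + 1) (fun i => v (FI.L2, i)) (j : ℕ)))) ∧
      ∀ e ∈ E', e.2 = s → LinearIndependent K (fun j => H930.grad (xL e) (f j)) := by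
  obtain ⟨f, hf, hind⟩ := fam_sys U.unif U.ne U.par.beta_gt_one (isFilt_total (k := K))
    U.par.b_gt_one.le U.famL2 k₀ hk₀ s
  refine ⟨f, fun j => ?_, hind⟩
  have h1 := hf j
  rwa [one_mul] at h1

theorem vL1_le (k₀ : ℕ) (hk₀ : k₀ ≤ K') : v (FI.L1, k₀) ≤ n := by
  have h1 := fam_le_card U.unif U.ne U.famL1 hk₀
  rwa [Fintype.card_fin] at h1

theorem vL2_le (k₀ : ℕ) (hk₀ : k₀ ≤ K') : v (FI.L2, k₀) ≤ n := by
  have h1 := fam_le_card U.unif U.ne U.famL2 hk₀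
  rwa [Fintype.card_fin] at h1

theorem goodL1 (k₀ k₁ : ℕ) (hk : k₀ ≤ k₁) (hk₁ : k₁ ≤ K')
    (hconst : ∀ i, k₀ ≤ i → i < k₁ → v (FI.L1, i) = v (FI.L1, k₀))
    (f : H307.ZK n K → Fin (v (FI.L1, k₀)) → MvPolynomial (Fin n) K)
    (hf : ∀ s, ∀ j : Fin (v (FI.L1, k₀)), f s j ∈ van xL (fib Prod.fst E' s)
      (restrictTotalDegree (Fin n) K
        ((β ^ L) ^ kap (k₀ + 1) (fun i => v (FI.L1, i)) (j : ℕ))))
    (hind : ∀ e ∈ E', LinearIndependent K (fun j => H930.grad (xL e) (f e.1 j)))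
    {A : Finset (Ed n K)} (hA : A ⊆ E') {r β' : ℕ} (hr : E'.card ≤ r * A.card)
    (hrq : r * β' ≤ q) (m : ℕ) (hm : m + NN n * NN n + 2 ≤ k₁)
    (Y : Finset (Ed n K)) (hYA : Y ⊆ A)
    (hY : ∀ e ∈ Y, ∃ F : MvPolynomial (Fin n) K, F.totalDegree ≤ (β ^ L) ^ m ∧
      (∀ a ∈ A, a.1 = e.1 → eval (xL a) F = 0) ∧ F ∉ germ (xL e) (f e.1)) :
    β' * Y.card ≤ A.card :=
  fam_GOOD U.par U.unif U.ne U.mono (card_Fin_le n) le_rfl U.famL1 k₀ k₁ hk hk₁ hconst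
    f hf hind hA hr hrq m hm Y hYA hY

theorem goodL2 (k₀ k₁ : ℕ) (hk : k₀ ≤ k₁) (hk₁ : k₁ ≤ K')
    (hconst : ∀ i, k₀ ≤ i → i < k₁ → v (FI.L2, i) = v (FI.L2, k₀))
    (f : H307.ZK n K → Fin (v (FI.L2, k₀)) → MvPolynomial (Fin n) K)
    (hf : ∀ s, ∀ j : Fin (v (FI.L2, k₀)), f s j ∈ van xL (fib Prod.snd E' s)
      (restrictTotalDegree (Fin n) K
        ((β ^ L) ^ kap (k₀ + 1) (fun i => v (FI.L2, i)) (j : ℕ))))
    (hind : ∀ e ∈ E', LinearIndependent K (fun j => H930.grad (xL e) (f e.2 j)))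
    {A : Finset (Ed n K)} (hA : A ⊆ E') {r β' : ℕ} (hr : E'.card ≤ r * A.card)
    (hrq : r * β' ≤ q) (m : ℕ) (hm : m + NN n * NN n + 2 ≤ k₁)
    (Y : Finset (Ed n K)) (hYA : Y ⊆ A)
    (hY : ∀ e ∈ Y, ∃ F : MvPolynomial (Fin n) K, F.totalDegree ≤ (β ^ L) ^ m ∧
      (∀ a ∈ A, a.2 = e.2 → eval (xL a) F = 0) ∧ F ∉ germ (xL e) (f e.2)) :
    β' * Y.card ≤ A.card :=
  fam_GOOD U.par U.unif U.ne U.mono (card_Fin_le n) le_rfl U.famL2 k₀ k₁ hk hk₁ hconst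
    f hf hind hA hr hrq m hm Y hYA hY

/-- lower bound in the leaves, for a general fibre map (`L1` or `L2`) -/
theorem lowerL {S : Type*} {p : Ed n K → S} {g : ℕ → FI × ℕ}
    (hg : IsFam (cA n K (β ^ L)) (JA K') g K' xL p (restrictTotalDegree (Fin n) K) 1 (β ^ L))
    (k₁ : ℕ) (hk₁ : k₁ ≤ K') {B : Finset (Ed n K)} (hB : B ⊆ E') {r : ℕ}
    (hr : r ≤ q) (hd : E'.card < r * B.card) :
    ∃ e ∈ B, (β ^ L) ^ (∑ i ∈ range k₁, (n - v (g i))) ≤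
      (((C₁ ^ n * n.factorial) ^ L) ^ k₁ * (β ^ L) ^ (n * n)) *
        rkF (restrictTotalDegree (Fin n) K) (pts xL (fib p B (p e))) ((β ^ L) ^ k₁) := by
  obtain ⟨e, he⟩ := core_nonempty U.par U.unif U.mono hB hr hd
  have h1 := fam_lower U.par (isFilt_total (k := K)) (fun m i F hF => by
      rw [← Vw_one_eq] at hF ⊢
      exact Vw_mono _ (Nat.sub_le _ _) (pderiv_mem_Vw _ hF i))
    (fun i => by rw [← Vw_one_eq]; exact X_mem_Vw _ i) (card_Fin_le n) hk₁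
    (sub_fam U hk₁ hg) he
  rw [one_mul, Fintype.card_fin] at h1
  refine ⟨e, core_subset _ _ he, le_trans ?_ h1⟩
  exact Nat.le_mul_of_pos_right _
    (one_le_rkF (isFilt_total (k := K)) (H307.pts_nonempty ⟨e, self_mem_fib he⟩) _)

/-- the same in the form of `H269.goodL`: `∏ b^κ_j * T' ^ σ` with `T' = b ^ k₁` -/
theorem lowerL' {S : Type*} {p : Ed n K → S} {g : ℕ → FI × ℕ}
    (hg : IsFam (cA n K (β ^ L)) (JA K') g K' xL p (restrictTotalDegree (Fin n) K) 1 (β ^ L))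
    (k₀ k₁ : ℕ) (hk : k₀ ≤ k₁) (hk₁ : k₁ ≤ K')
    (hconst : ∀ i, k₀ ≤ i → i < k₁ → v (g i) = v (g k₀))
    {B : Finset (Ed n K)} (hB : B ⊆ E') {r : ℕ}
    (hr : r ≤ q) (hd : E'.card < r * B.card) :
    ∃ e ∈ B, (∏ j : Fin (v (g k₀)), (β ^ L) ^ kap (k₀ + 1) (fun i => v (g i)) (j : ℕ)) *
        ((β ^ L) ^ k₁) ^ (n - v (g k₀)) ≤
      (((C₁ ^ n * n.factorial) ^ L) ^ k₁ * (β ^ L) ^ (n * n)) *
        rkF (restrictTotalDegree (Fin n) K) (pts xL (fib p B (p e))) ((β ^ L) ^ k₁) := by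
  obtain ⟨e, he, h1⟩ := U.lowerL hg k₁ hk₁ hB hr hd
  refine ⟨e, he, le_trans (le_of_eq ?_) h1⟩
  have hle : v (g k₀) ≤ n := by
    have h2 := fam_le_card U.unif U.ne hg (hk.trans hk₁)
    rwa [Fintype.card_fin] at h2
  have h3 := sum_kap_window n (k₀ + 1) k₁ (fun i => v (g i)) (by omega)
    (fun a b hab hb => U.unif.fam_mono U.ne U.par.beta_gt_one (isFilt_total (k := K)).mono
      U.par.b_gt_one.le hg hab (by omega))
    (by simpa using hle) (fun a h4 h5 => by simpa using hconst a (by simpa using h4) h5)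
  simp only [Nat.add_sub_cancel] at h3
  rw [← h3, pow_add, ← pow_mul, Finset.prod_pow_eq_pow_sum, Finset.sum_range]

/-! ### the hats -/

variable {ρ : Type*} [Fintype ρ] [DecidableEq ρ]

/-- **(SYS) for a hat** (`H1`, `H2`, `T`) -/
theorem sysHat {x : Ed n K → Crd n ⊕ ρ → K} (hx : ∀ e, x e ∘ Sum.inl = xF e)
    {g : ℕ → FI × ℕ} (k₀ : ℕ) (hk₀ : k₀ ≤ K')
    (hFH : IsFam (cA n K (β ^ L)) (JA K') g K' x (fun _ => ())
      (Vw K (wh (Crd n) ρ ((β ^ L) ^ k₀))) ((β ^ L) ^ k₀) (β ^ L))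
    (f : Fin (v (FI.F, k₀)) → MvPolynomial (Crd n) K)
    (hf : ∀ j : Fin (v (FI.F, k₀)), f j ∈ van xF E' (restrictTotalDegree (Crd n) K
      ((β ^ L) ^ kap (k₀ + 1) (fun i => v (FI.F, i)) (j : ℕ))))
    (hind : ∀ e ∈ E', LinearIndependent K (fun j => H930.grad (xF e) (f j))) :
    (∀ i ≤ K', v (FI.F, k₀) ≤ v (g i)) ∧
    ∀ i₀ ≤ K', ∀ m, v (FI.F, k₀) + m = v (g i₀) →
      ∃ F : Fin (v (FI.F, k₀) + m) → MvPolynomial (Crd n ⊕ ρ) K,
        (∀ j, F (Fin.castAdd m j) = rename Sum.inl (f j)) ∧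
        (∀ j : Fin (v (FI.F, k₀)), F (Fin.castAdd m j) ∈ van x E'
          (Vw K (wh (Crd n) ρ ((β ^ L) ^ k₀))
            ((β ^ L) ^ kap (k₀ + 1) (fun i => v (FI.F, i)) (j : ℕ)))) ∧
        (∀ j : Fin m, F (Fin.natAdd (v (FI.F, k₀)) j) ∈ van x E'
          (Vw K (wh (Crd n) ρ ((β ^ L) ^ k₀))
            ((β ^ L) ^ (k₀ + kap (i₀ + 1) (fun i => v (g i)) (v (FI.F, k₀) + j))))) ∧
        ∀ e ∈ E', LinearIndependent K (fun j => H930.grad (x e) (F j)) := by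
  have hxe : (fun e => x e ∘ Sum.inl) = xF := funext hx
  have h := hat_sys (x := x) (p := fun _ => ()) (idxF := fun i => (FI.F, i)) (idxH := g)
    (KF := K') (KH := K') U.unif U.ne U.par.beta_gt_one U.par.b_gt_one k₀
    (by rw [hxe]; exact U.famF) hFH hk₀ (fun _ => f)
    (fun s j => by rw [fib_unit, hxe]; exact hf j)
    (fun e he => by
      have h1 := hind e he
      rw [← hx e] at h1
      exact h1)
  refine ⟨h.1, fun i₀ hi₀ m hm => ?_⟩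
  obtain ⟨F, h1, h2, h3, h4⟩ := h.2 i₀ hi₀ m hm
  refine ⟨F (), h1 (), fun j => ?_, fun j => ?_, h4⟩
  · have h5 := h2 () j
    rwa [fib_unit] at h5
  · have h5 := h3 () j
    rwa [fib_unit] at h5

/-- **[GOOD] for a hat** on a dense subset, level `b ^ (k₀ + i)` -/
theorem goodHat {x : Ed n K → Crd n ⊕ ρ → K} (hx : ∀ e, x e ∘ Sum.inl = xF e)
    (hρ : Fintype.card (Crd n) + Fintype.card ρ ≤ NN n)
    {g : ℕ → FI × ℕ} (k₀ : ℕ) (hk₀ : k₀ ≤ K')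
    (hFH : IsFam (cA n K (β ^ L)) (JA K') g K' x (fun _ => ())
      (Vw K (wh (Crd n) ρ ((β ^ L) ^ k₀))) ((β ^ L) ^ k₀) (β ^ L))
    (i₀ i₁ : ℕ) (hi : i₀ ≤ i₁) (hi₁ : i₁ ≤ K')
    (hconst : ∀ i, i₀ ≤ i → i < i₁ → v (g i) = v (g i₀))
    {m : ℕ} (hm : v (g i₀) = v (FI.F, k₀) + m) (hge : ∀ i ≤ i₀, v (FI.F, k₀) ≤ v (g i))
    (F : Fin (v (FI.F, k₀) + m) → MvPolynomial (Crd n ⊕ ρ) K)
    (hF1 : ∀ j : Fin (v (FI.F, k₀)), F (Fin.castAdd m j) ∈ van x E'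
      (Vw K (wh (Crd n) ρ ((β ^ L) ^ k₀))
        ((β ^ L) ^ kap (k₀ + 1) (fun i => v (FI.F, i)) (j : ℕ))))
    (hF2 : ∀ j : Fin m, F (Fin.natAdd (v (FI.F, k₀)) j) ∈ van x E'
      (Vw K (wh (Crd n) ρ ((β ^ L) ^ k₀))
        ((β ^ L) ^ (k₀ + kap (i₀ + 1) (fun i => v (g i)) (v (FI.F, k₀) + j)))))
    (hF3 : ∀ e ∈ E', LinearIndependent K (fun j => H930.grad (x e) (F j)))
    {A : Finset (Ed n K)} (hA : A ⊆ E') {r β' : ℕ} (hr : E'.card ≤ r * A.card)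
    (hrq : 2 * (r * β') ≤ q)
    (i : ℕ) (hii : i + 2 * (NN n * NN n) + 2 ≤ i₁)
    (Y : Finset (Ed n K)) (hYA : Y ⊆ A)
    (hY : ∀ e ∈ Y, ∃ G ∈ Vw K (wh (Crd n) ρ ((β ^ L) ^ k₀)) ((β ^ L) ^ (k₀ + i)),
      (∀ a ∈ A, eval (x a) G = 0) ∧ G ∉ germ (x e) F) :
    β' * Y.card ≤ A.card := by
  have hxe : (fun e => x e ∘ Sum.inl) = xF := funext hx
  refine hat_GOOD (x := x) (p := fun _ => ()) (idxF := fun i => (FI.F, i)) (idxH := g)
    U.par U.unif U.ne U.mono hρ k₀ i₀ i₁ hi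
    (by rw [hxe]; exact sub_fam U hk₀ U.famF) (sub_fam U hi₁ hFH) hk₀ hi₁ hconst hm hge
    (fun _ => F) (fun s j => by rw [fib_unit]; exact hF1 j)
    (fun s j => by rw [fib_unit]; exact hF2 j) hF3 hA hr hrq i hii Y hYA
    (fun e he => by
      obtain ⟨G, h1, h2, h3⟩ := hY e he
      exact ⟨G, h1, fun a ha _ => h2 a ha, h3⟩)

/-- lower bound for a hat on dense sets -/
theorem lowerHat {x : Ed n K → Crd n ⊕ ρ → K} (hx : ∀ e, x e ∘ Sum.inl = xF e)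
    (hρ : Fintype.card (Crd n) + Fintype.card ρ ≤ NN n)
    {g : ℕ → FI × ℕ} (k₀ : ℕ) (hk₀ : k₀ ≤ K')
    (hFH : IsFam (cA n K (β ^ L)) (JA K') g K' x (fun _ => ())
      (Vw K (wh (Crd n) ρ ((β ^ L) ^ k₀))) ((β ^ L) ^ k₀) (β ^ L))
    (i₁ : ℕ) (hi₁ : i₁ ≤ K') {B : Finset (Ed n K)} (hB : B ⊆ E') {r : ℕ} (hr : 2 * r ≤ q)
    (hd : E'.card < r * B.card) :
    (β ^ L) ^ (∑ j ∈ range k₀, (Fintype.card (Crd n) - v (FI.F, j)) +
        ∑ i ∈ range i₁, (Fintype.card (Crd n) + Fintype.card ρ - v (g i))) ≤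
      ((((C₁ ^ (Fintype.card (Crd n)) * (Fintype.card (Crd n)).factorial) ^ L) ^ k₀ *
        (β ^ L) ^ (Fintype.card (Crd n) * Fintype.card (Crd n))) *
       (((C₁ ^ (Fintype.card (Crd n) + Fintype.card ρ) *
          (Fintype.card (Crd n) + Fintype.card ρ).factorial) ^ L) ^ i₁ *
        (β ^ L) ^ ((Fintype.card (Crd n) + Fintype.card ρ) *
          (Fintype.card (Crd n) + Fintype.card ρ)))) *
      rkF (Vw K (wh (Crd n) ρ ((β ^ L) ^ k₀))) (pts x B) ((β ^ L) ^ (k₀ + i₁)) := by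
  have hxe : (fun e => x e ∘ Sum.inl) = xF := funext hx
  obtain ⟨e, he, h1⟩ := hat_lower_u (x := x) (p := fun _ => ()) (idxF := fun i => (FI.F, i))
    (idxH := g) U.par U.unif U.mono hρ k₀ i₁
    (by rw [hxe]; exact sub_fam U hk₀ U.famF) (sub_fam U hi₁ hFH) hk₀ hi₁ hB hr hd
  rwa [fib_unit] at h1

end US

end Vale.Agent.P054.T2.H580
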