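import Mathlib

/-!
# P054 / T2: contagion (matroid form)

`E` is a finite set of pairs `(s, r)`, `v (s, r)` a vector.  `w s` = rank of the vectors of `E` with
first index `s`, `w' r` = rank of those with second index `r`.  Then at least half of `E` spans a
space of dimension `≤ 8 (∑ w) (∑ w') / |E|`.
-/

open Finset Module

namespace Vale.Agent.P054.T2.H580

variable {K V S R : Type*} [Field K] [AddCommGroup V] [Module K V] [DecidableEq S] [DecidableEq R]

/-- rank of a finite set of vectors indexed by `E` -/
noncomputable def rk (K : Type*) {V ι : Type*} [Field K] [AddCommGroup V] [Module K V]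
    (v : ι → V) (E : Finset ι) : ℕ := finrank K (Submodule.span K (v '' (E : Set ι)))

instance finite_span {ι : Type*} (v : ι → V) (E : Finset ι) :
    Module.Finite K (Submodule.span K (v '' (E : Set ι))) :=
  Module.Finite.span_of_finite K (E.finite_toSet.image v)

theorem rk_mono {ι : Type*} (v : ι → V) {E F : Finset ι} (h : E ⊆ F) : rk K v E ≤ rk K v F :=
  Submodule.finrank_mono (Submodule.span_mono (Set.image_mono (by exact_mod_cast h)))

theorem rk_le_card {ι : Type*} [DecidableEq ι] (v : ι → V) (E : Finset ι) :
    rk K v E ≤ E.card := by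
  classical
  have := finrank_span_finset_le_card (R := K) (E.image v)
  rw [Finset.coe_image] at this
  exact this.trans Finset.card_image_le

theorem rk_eq_zero {ι : Type*} (v : ι → V) (E : Finset ι) :
    rk K v E = 0 ↔ ∀ e ∈ E, v e = 0 := by
  unfold rk
  rw [Submodule.finrank_eq_zero, Submodule.span_eq_bot]
  constructor
  · intro h e he
    exact h _ ⟨e, he, rfl⟩
  · rintro h _ ⟨e, he, rfl⟩
    exact h e he

/-- vectors none of which is in the span of the others of a bigger family -/
theorem card_le_rk {ι : Type*} [DecidableEq ι] (v : ι → V) (C F : Finset ι) (hF : F ⊆ C)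
    (h : ∀ e ∈ F, v e ∉ Submodule.span K (v '' ((C.erase e : Finset ι) : Set ι))) :
    F.card ≤ rk K v F := by
  classical
  have hli : LinearIndependent K (fun e : F => v e) := by
    rw [linearIndependent_iff_notMem_span]
    intro e he
    refine h e.1 e.2 (Submodule.span_mono ?_ he)
    rintro x ⟨y, hy, rfl⟩
    refine ⟨y.1, ?_, rfl⟩
    rw [Finset.mem_coe, Finset.mem_erase]
    exact ⟨fun hye => hy.2 (Subtype.ext hye), hF y.2⟩
  have h1 := finrank_span_eq_card hli
  have h2 : Set.range (fun e : F => v e) = v '' (F : Set ι) := by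
    ext x; simp
  rw [h2] at h1
  unfold rk
  rw [h1]
  simp

theorem finrank_sup_le {ι : Type*} [DecidableEq ι] (I : Finset ι) (W : ι → Submodule K V)
    (hW : ∀ i ∈ I, Module.Finite K (W i)) :
    Module.Finite K (I.sup W : Submodule K V) ∧ finrank K (I.sup W : Submodule K V) ≤
      ∑ i ∈ I, finrank K (W i) := by
  induction I using Finset.induction_on with
  | empty =>
    rw [Finset.sup_empty]
    exact ⟨inferInstance, by simp⟩
  | insert a J ha ih =>
    obtain ⟨h1, h2⟩ := ih fun i hi => hW i (mem_insert_of_mem hi)
    have h3 := hW a (mem_insert_self _ _)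
    rw [Finset.sup_insert, Finset.sum_insert ha]
    refine ⟨inferInstance, ?_⟩
    exact (Submodule.finrank_add_le_finrank_add_finrank _ _).trans (Nat.add_le_add_left h2 _)

/-- **Contagion.** -/
theorem contagion [Fintype R] (v : S × R → V) (E : Finset (S × R)) (A B : ℕ)
    (hA : ∑ s ∈ E.image Prod.fst, rk K v (E.filter fun e => e.1 = s) ≤ A)
    (hB : ∑ r ∈ E.image Prod.snd, rk K v (E.filter fun e => e.2 = r) ≤ B) :
    ∃ E' ⊆ E, E.card ≤ 2 * E'.card ∧ E.card * rk K v E' ≤ 8 * (A * B) := by
  classical
  rcases Nat.eq_zero_or_pos E.card with h0 | hEpos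
  · exact ⟨E, subset_rfl, by omega, by rw [h0]; simp⟩
  -- trivial cases
  have hall : (∀ e ∈ E, v e = 0) →
      ∃ E' ⊆ E, E.card ≤ 2 * E'.card ∧ E.card * rk K v E' ≤ 8 * (A * B) := by
    intro hz
    refine ⟨E, subset_rfl, by omega, ?_⟩
    rw [(rk_eq_zero v E).2 hz]; simp
  rcases Nat.eq_zero_or_pos A with hA0 | hApos
  · apply hall
    subst hA0
    intro e he
    have h1 := (Finset.sum_eq_zero_iff.1 (Nat.le_zero.1 hA)) e.1 (mem_image_of_mem _ he)
    exact (rk_eq_zero v _).1 h1 e (by simp [he])
  rcases Nat.eq_zero_or_pos B with hB0 | hBpos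
  · apply hall
    subst hB0
    intro e he
    have h1 := (Finset.sum_eq_zero_iff.1 (Nat.le_zero.1 hB)) e.2 (mem_image_of_mem _ he)
    exact (rk_eq_zero v _).1 h1 e (by simp [he])
  set q : ℕ := E.card / (4 * A) with hq
  have hq1 : 4 * A * q ≤ E.card := Nat.mul_div_le _ _
  have hq2 : E.card < 4 * A * (q + 1) := Nat.lt_mul_div_succ _ (by omega)
  -- class of colour 0 on the leaf of `e`, without `e`
  let P : S × R → (R → Fin (q + 1)) → Prop := fun e χ =>
    v e ∉ Submodule.span K (v '' (((E.filter fun e' => e'.1 = e.1 ∧ χ e'.2 = 0).erase e :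
      Finset (S × R)) : Set (S × R)))
  let unsp : (R → Fin (q + 1)) → Finset (S × R) := fun χ =>
    E.filter fun e => χ e.2 ≠ 0 ∧ P e χ
  let b : (R → Fin (q + 1)) → ℕ := fun χ =>
    ∑ r ∈ E.image Prod.snd, if χ r = 0 then rk K v (E.filter fun e => e.2 = r) else 0
  set N : ℕ := Fintype.card (R → Fin (q + 1)) with hN
  have hNpos : 0 < N := Fintype.card_pos
  -- independence of `P e` from the value at `e.2`
  have hP : ∀ e χ a, P e (Function.update χ e.2 a) ↔ P e χ := by
    intro e χ a
    have : (E.filter fun e' => e'.1 = e.1 ∧ Function.update χ e.2 a e'.2 = 0).erase e =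
        (E.filter fun e' => e'.1 = e.1 ∧ χ e'.2 = 0).erase e := by
      ext e'
      simp only [mem_erase, mem_filter, ne_eq]
      refine and_congr_right fun hne => and_congr_right fun _ => and_congr_right fun h1 => ?_
      have h2 : e'.2 ≠ e.2 := fun h2 => hne (Prod.ext h1 h2)
      rw [Function.update_of_ne h2]
    simp only [P, this]
  -- exchange
  have hex : ∀ e : S × R,
      (univ.filter fun χ : R → Fin (q + 1) => χ e.2 ≠ 0 ∧ P e χ).card ≤
        q * (univ.filter fun χ : R → Fin (q + 1) => χ e.2 = 0 ∧ P e χ).card := by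
    intro e
    have h1 : (univ.filter fun χ : R → Fin (q + 1) => χ e.2 ≠ 0 ∧ P e χ).card ≤
        (((univ : Finset (Fin (q + 1))).erase 0) ×ˢ
          (univ.filter fun χ : R → Fin (q + 1) => χ e.2 = 0 ∧ P e χ)).card := by
      refine Finset.card_le_card_of_injOn (fun χ => (χ e.2, Function.update χ e.2 0)) ?_ ?_
      · intro χ hχ
        simp only [coe_filter, mem_univ, true_and, Set.mem_ofPred_eq] at hχ
        simp only [coe_product, Set.mem_prod, mem_coe, mem_erase, mem_univ, and_true, mem_filter,
          true_and, Function.update_self]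
        exact ⟨hχ.1, (hP e χ 0).2 hχ.2⟩
      · intro χ _ χ' _ h
        simp only [Prod.mk.injEq] at h
        funext r
        by_cases hr : r = e.2
        · rw [hr]; exact h.1
        · have := congrFun h.2 r
          rwa [Function.update_of_ne hr, Function.update_of_ne hr] at this
    refine h1.trans (le_of_eq ?_)
    rw [Finset.card_product]
    simp
  -- the sum of the unspanned
  have hun : ∑ χ, (unsp χ).card ≤ q * (N * A) := by
    have h1 : ∑ χ, (unsp χ).card =
        ∑ e ∈ E, (univ.filter fun χ : R → Fin (q + 1) => χ e.2 ≠ 0 ∧ P e χ).card := by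
      simp only [unsp, Finset.card_filter]
      exact Finset.sum_comm
    have h2 : ∑ e ∈ E, (univ.filter fun χ : R → Fin (q + 1) => χ e.2 = 0 ∧ P e χ).card =
        ∑ χ : R → Fin (q + 1), (E.filter fun e => χ e.2 = 0 ∧ P e χ).card := by
      simp only [Finset.card_filter]
      exact Finset.sum_comm
    have h3 : ∀ χ : R → Fin (q + 1), (E.filter fun e => χ e.2 = 0 ∧ P e χ).card ≤ A := by
      intro χ
      refine le_trans ?_ hA
      rw [Finset.card_eq_sum_card_fiberwise (f := Prod.fst) (t := E.image Prod.fst)]
      · refine Finset.sum_le_sum fun s _ => ?_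
        refine le_trans (card_le_rk (K := K) v
          (E.filter fun e' => e'.1 = s ∧ χ e'.2 = 0) _ ?_ ?_) (rk_mono v ?_)
        · intro e he
          simp only [mem_filter] at he ⊢
          exact ⟨he.1.1, he.2, he.1.2.1⟩
        · intro e he
          simp only [mem_filter] at he
          obtain ⟨⟨_, _, h4⟩, h5⟩ := he
          subst h5
          exact h4
        · intro e he
          simp only [mem_filter] at he ⊢
          exact ⟨he.1.1, he.2⟩
      · intro e he
        simp only [coe_filter, Set.mem_ofPred_eq] at he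
        exact mem_coe.2 (mem_image_of_mem _ he.1)
    calc ∑ χ, (unsp χ).card ≤
        ∑ e ∈ E, q * (univ.filter fun χ : R → Fin (q + 1) => χ e.2 = 0 ∧ P e χ).card := by
          rw [h1]; exact Finset.sum_le_sum fun e _ => hex e
      _ = q * ∑ χ : R → Fin (q + 1), (E.filter fun e => χ e.2 = 0 ∧ P e χ).card := by
          rw [← Finset.mul_sum, h2]
      _ ≤ q * ∑ _χ : R → Fin (q + 1), A :=
          Nat.mul_le_mul_left _ (Finset.sum_le_sum fun χ _ => h3 χ)
      _ = q * (N * A) := by rw [Finset.sum_const, Finset.card_univ, smul_eq_mul]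
  -- the sum of the `b`
  have hb : (q + 1) * ∑ χ, b χ ≤ N * B := by
    have h1 : ∀ r : R, (q + 1) * (univ.filter fun χ : R → Fin (q + 1) => χ r = 0).card = N := by
      intro r
      have h2 : ∀ a : Fin (q + 1), (univ.filter fun χ : R → Fin (q + 1) => χ r = a).card =
          (univ.filter fun χ : R → Fin (q + 1) => χ r = 0).card := by
        intro a
        refine Finset.card_bij (fun χ _ => Function.update χ r 0) ?_ ?_ ?_
        · intro χ _; simp
        · intro χ h χ' h' hh
          simp only [mem_filter, mem_univ, true_and] at h h'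
          funext i
          by_cases hi : i = r
          · rw [hi, h, h']
          · have := congrFun hh i
            rwa [Function.update_of_ne hi, Function.update_of_ne hi] at this
        · intro χ h
          simp only [mem_filter, mem_univ, true_and] at h
          refine ⟨Function.update χ r a, by simp, ?_⟩
          rw [Function.update_idem]
          rw [← h, Function.update_eq_self]
      have h3 : N = ∑ a : Fin (q + 1), (univ.filter fun χ : R → Fin (q + 1) => χ r = a).card := by
        rw [hN, ← Finset.card_univ]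
        exact Finset.card_eq_sum_card_fiberwise (fun χ _ => by simp)
      rw [h3, Finset.sum_congr rfl fun a _ => h2 a]
      simp
    have h4 : ∑ χ, b χ = ∑ r ∈ E.image Prod.snd,
        (univ.filter fun χ : R → Fin (q + 1) => χ r = 0).card *
          rk K v (E.filter fun e => e.2 = r) := by
      simp only [b]
      rw [Finset.sum_comm]
      refine Finset.sum_congr rfl fun r _ => ?_
      rw [← Finset.sum_filter, Finset.sum_const, smul_eq_mul]
    rw [h4, Finset.mul_sum]
    calc ∑ r ∈ E.image Prod.snd, (q + 1) *
          ((univ.filter fun χ : R → Fin (q + 1) => χ r = 0).card *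
            rk K v (E.filter fun e => e.2 = r))
        = ∑ r ∈ E.image Prod.snd, N * rk K v (E.filter fun e => e.2 = r) := by
          refine Finset.sum_congr rfl fun r _ => ?_
          rw [← mul_assoc, h1 r]
      _ = N * ∑ r ∈ E.image Prod.snd, rk K v (E.filter fun e => e.2 = r) :=
          (Finset.mul_sum _ _ _).symm
      _ ≤ N * B := Nat.mul_le_mul_left _ hB
  -- a good colouring
  obtain ⟨χ, hχ1, hχ2⟩ : ∃ χ, 2 * (unsp χ).card ≤ E.card ∧ E.card * b χ ≤ 8 * (A * B) := by
    by_contra hcon
    push Not at hcon
    have h1 : ∀ χ, 8 * (A * B) * E.card <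
        16 * (A * B) * (unsp χ).card + E.card * E.card * b χ := by
      intro χ
      rcases le_or_gt (2 * (unsp χ).card) E.card with h | h
      · have h2 := hcon χ h
        have h3 := Nat.mul_lt_mul_of_pos_left h2 hEpos
        calc 8 * (A * B) * E.card = E.card * (8 * (A * B)) := by ring
          _ < E.card * (E.card * b χ) := h3
          _ = E.card * E.card * b χ := by ring
          _ ≤ _ := Nat.le_add_left _ _
      · have hAB : 0 < A * B := Nat.mul_pos hApos hBpos
        have h3 := Nat.mul_lt_mul_of_pos_left h hAB
        calc 8 * (A * B) * E.card = 8 * (A * B * E.card) := by ring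
          _ < 8 * (A * B * (2 * (unsp χ).card)) := by omega
          _ = 16 * (A * B) * (unsp χ).card := by ring
          _ ≤ _ := Nat.le_add_right _ _
    have h2 : N * (8 * (A * B) * E.card) <
        16 * (A * B) * ∑ χ, (unsp χ).card + E.card * E.card * ∑ χ, b χ := by
      have h3 : ∑ _χ : R → Fin (q + 1), 8 * (A * B) * E.card <
          ∑ χ, (16 * (A * B) * (unsp χ).card + E.card * E.card * b χ) :=
        Finset.sum_lt_sum_of_nonempty univ_nonempty fun χ _ => h1 χ
      rw [Finset.sum_const, Finset.card_univ, smul_eq_mul, Finset.sum_add_distrib,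
        ← Finset.mul_sum, ← Finset.mul_sum] at h3
      exact h3
    have h4 : 16 * (A * B) * ∑ χ, (unsp χ).card ≤ 4 * (A * B) * E.card * N := by
      calc 16 * (A * B) * ∑ χ, (unsp χ).card ≤ 16 * (A * B) * (q * (N * A)) :=
            Nat.mul_le_mul_left _ hun
        _ = 4 * (A * B) * (4 * A * q) * N := by ring
        _ ≤ 4 * (A * B) * E.card * N :=
            Nat.mul_le_mul_right _ (Nat.mul_le_mul_left _ hq1)
    have h5 : E.card * E.card * ∑ χ, b χ ≤ 4 * (A * B) * E.card * N := by
      have h6 : (q + 1) * (E.card * E.card * ∑ χ, b χ) ≤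
          (q + 1) * (4 * (A * B) * E.card * N) := by
        calc (q + 1) * (E.card * E.card * ∑ χ, b χ)
            = E.card * E.card * ((q + 1) * ∑ χ, b χ) := by ring
          _ ≤ E.card * E.card * (N * B) := Nat.mul_le_mul_left _ hb
          _ ≤ E.card * (4 * A * (q + 1)) * (N * B) :=
              Nat.mul_le_mul_right _ (Nat.mul_le_mul_left _ hq2.le)
          _ = (q + 1) * (4 * (A * B) * E.card * N) := by ring
      exact Nat.le_of_mul_le_mul_left h6 (Nat.succ_pos q)
    have h7 : N * (8 * (A * B) * E.card) = 4 * (A * B) * E.card * N + 4 * (A * B) * E.card * N := by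
      ring
    omega
  refine ⟨E \ unsp χ, sdiff_subset, ?_, le_trans (Nat.mul_le_mul_left _ ?_) hχ2⟩
  · have h1 : (unsp χ).card ≤ E.card := card_le_card (filter_subset _ _)
    have h2 : (E \ unsp χ).card = E.card - (unsp χ).card :=
      Finset.card_sdiff_of_subset (filter_subset _ _)
    omega
  · -- rank of the spanned part
    have hmem : ∀ e ∈ E \ unsp χ, v e ∈ Submodule.span K (v '' ((E.filter fun e' => χ e'.2 = 0 :
        Finset (S × R)) : Set (S × R))) := by
      intro e he
      rw [mem_sdiff, mem_filter, not_and, not_and] at he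
      obtain ⟨heE, he2⟩ := he
      by_cases h0 : χ e.2 = 0
      · exact Submodule.subset_span ⟨e, by simp [heE, h0], rfl⟩
      · have h1 := he2 heE h0
        simp only [P, not_not] at h1
        refine Submodule.span_mono (Set.image_mono ?_) h1
        intro e' he'
        simp only [coe_erase, coe_filter, Set.mem_sdiff, Set.mem_ofPred_eq] at he' ⊢
        exact ⟨he'.1.1, he'.1.2.2⟩
    let I : Finset R := (E.image Prod.snd).filter fun r => χ r = 0
    let W : R → Submodule K V := fun r =>
      Submodule.span K (v '' ((E.filter fun e => e.2 = r : Finset (S × R)) : Set (S × R)))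
    have hW := finrank_sup_le (K := K) I W (fun r _ => finite_span v _)
    have hle : Submodule.span K (v '' ((E \ unsp χ : Finset (S × R)) : Set (S × R))) ≤
        I.sup W := by
      rw [Submodule.span_le]
      rintro _ ⟨e, he, rfl⟩
      have h1 := hmem e he
      have h2 : Submodule.span K (v '' ((E.filter fun e' => χ e'.2 = 0 :
          Finset (S × R)) : Set (S × R))) ≤ I.sup W := by
        rw [Submodule.span_le]
        rintro _ ⟨e', he', rfl⟩
        rw [mem_coe, mem_filter] at he'
        have h3 : W e'.2 ≤ I.sup W := Finset.le_sup (f := W)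
          (by simp only [I, mem_filter]; exact ⟨mem_image_of_mem _ he'.1, he'.2⟩)
        exact h3 (Submodule.subset_span ⟨e', by simp [he'.1], rfl⟩)
      exact h2 h1
    have := hW.1
    calc rk K v (E \ unsp χ) ≤ finrank K (I.sup W : Submodule K V) := Submodule.finrank_mono hle
      _ ≤ ∑ r ∈ I, finrank K (W r) := hW.2
      _ = b χ := by
          simp only [I, b, W, rk]
          rw [Finset.sum_filter]

end Vale.Agent.P054.T2.H580
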