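import Vale.Agent.P054.T2.H580.Filt
import Vale.Agent.P054.T2.H163.Hilb
import Vale.Agent.P054.T2.H441.Dense2

/-!
# P054 / T2: separation lemma, [Lo], (G2), [G3] for a general filtration

Port of `H163/Hilb.lean` and `H441/Dense.lean`, `H441/Dense2.lean` from total degree to a
multiplicative filtration `V` of `MvPolynomial σ K` with `X i ∈ V w₀`
(weighted degree: `w₀` = the largest weight).
-/

open MvPolynomial Module

namespace Vale.Agent.P054.T2.H580

open H441 (resA resA_apply core exists_avoid reg_iInf)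
open H163 (m mem_m taylor taylor_unit)

variable {σ K : Type*} [Field K]

/-- rank of `V n` on the finite set `Y` -/
noncomputable def rkF (V : ℕ → Submodule K (MvPolynomial σ K)) (Y : Finset (σ → K)) (n : ℕ) : ℕ :=
  finrank K ((V n).map (resA Y).toLinearMap)

theorem rkF_total (Y : Finset (σ → K)) (n : ℕ) :
    rkF (restrictTotalDegree σ K) Y n = H441.rkY Y n := rfl

theorem hilbF_total (I : Ideal (MvPolynomial σ K)) (n : ℕ) :
    hilbF (restrictTotalDegree σ K) I n = H441.hF I n := rfl

theorem X_mem_Vw_le (w : σ → ℕ) {w₀ : ℕ} (h : ∀ i, w i ≤ w₀) (i : σ) :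
    (X i : MvPolynomial σ K) ∈ Vw K w w₀ := Vw_mono w (h i) (X_mem_Vw w i)

namespace IsFilt

variable {V : ℕ → Submodule K (MvPolynomial σ K)} (hV : IsFilt V)
include hV

theorem C_mem (c : K) (n : ℕ) : (C c : MvPolynomial σ K) ∈ V n := by
  have h1 : (C c : MvPolynomial σ K) = c • 1 := by rw [MvPolynomial.smul_eq_C_mul, mul_one]
  rw [h1]
  exact (V n).smul_mem c (hV.mono (Nat.zero_le n) hV.one)

/-- polynomials of total degree `≤ k` are in `V (k * w₀)` -/
theorem total_le {w₀ : ℕ} (hX : ∀ i, (X i : MvPolynomial σ K) ∈ V w₀) (k : ℕ) :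
    restrictTotalDegree σ K k ≤ V (k * w₀) := by
  classical
  intro F hF
  rw [mem_restrictTotalDegree] at hF
  have hmon : ∀ d : σ →₀ ℕ, ∀ c : K, (monomial d c : MvPolynomial σ K) ∈ V (d.degree * w₀) := by
    intro d
    induction d using Finsupp.induction with
    | zero =>
      intro c
      rw [MvPolynomial.monomial_zero']
      exact hV.C_mem c _
    | single_add i a d _ _ ih =>
      intro c
      rw [show (Finsupp.single i a + d) = d + Finsupp.single i a from add_comm _ _,
        MvPolynomial.monomial_add_single, map_add, add_mul]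
      refine hV.mul (ih c) ?_
      have h2 : (Finsupp.single i a).degree = a := by simp
      rw [h2]
      exact hV.pow_mem (hX i) a
  rw [F.as_sum]
  refine Submodule.sum_mem _ fun d hd => ?_
  refine hV.mono (Nat.mul_le_mul_right _ ?_) (hmon d _)
  have h3 := MvPolynomial.le_totalDegree hd
  have h4 : d.degree = d.sum fun _ e => e := rfl
  omega

theorem exhaust {w₀ : ℕ} (hX : ∀ i, (X i : MvPolynomial σ K) ∈ V w₀) (F : MvPolynomial σ K) :
    F ∈ V (F.totalDegree * w₀) :=
  hV.total_le hX _ ((mem_restrictTotalDegree _ _ _).2 le_rfl)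

/-- **Separation lemma.** -/
theorem sep {w₀ : ℕ} (hX : ∀ i, (X i : MvPolynomial σ K) ∈ V w₀)
    (I : Ideal (MvPolynomial σ K)) (Y : Finset (σ → K))
    (q : (σ → K) → MvPolynomial σ K) (J : (σ → K) → Ideal (MvPolynomial σ K)) {T k : ℕ}
    (hq : ∀ p ∈ Y, q p ∈ V T)
    (hq1 : ∀ p ∈ Y, eval p (q p) = 1)
    (hq0 : ∀ p ∈ Y, ∀ p' ∈ Y, p' ≠ p → eval p' (q p) = 0)
    (hJ : ∀ p ∈ Y, m p ^ (k + 1) ≤ J p)
    (hIJ : ∀ p ∈ Y, ∀ F ∈ I, F ∈ V ((k + 1) * T + k * w₀) → F ∈ J p) :
    ∑ p ∈ Y, Module.finrank K (MvPolynomial σ K ⧸ J p) ≤ hilbF V I ((k + 1) * T + k * w₀) := by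
  classical
  have hfinV := hV.fin ((k + 1) * T + k * w₀)
  have hfinVk := hV.fin (k * w₀)
  set N := (k + 1) * T + k * w₀ with hN
  -- the quotients are finite dimensional
  have hfin : ∀ p : Y, Module.Finite K (MvPolynomial σ K ⧸ J p) := by
    intro p
    refine Module.Finite.of_surjective
      ((Ideal.Quotient.mkₐ K (J p)).toLinearMap ∘ₗ (V (k * w₀)).subtype) ?_
    intro c
    obtain ⟨F, rfl⟩ := Ideal.Quotient.mk_surjective c
    obtain ⟨G, hG, hFG⟩ := taylor (p : σ → K) k F
    refine ⟨⟨G, hV.total_le hX k hG⟩, ?_⟩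
    have : F - G ∈ J p := hJ p p.2 hFG
    simpa using ((Ideal.Quotient.eq (I := J (p : σ → K))).2 this).symm
  -- the map to the product
  let Φ : V N →ₗ[K] (∀ p : Y, MvPolynomial σ K ⧸ J p) :=
    LinearMap.pi fun p => (Ideal.Quotient.mkₐ K (J p)).toLinearMap ∘ₗ (V N).subtype
  let Ψ : V N →ₗ[K] (MvPolynomial σ K ⧸ I) := (Ideal.Quotient.mkₐ K I).toLinearMap ∘ₗ (V N).subtype
  have hker : LinearMap.ker Ψ ≤ LinearMap.ker Φ := by
    intro F hF
    have h1 : (F : MvPolynomial σ K) ∈ I := by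
      have : Ideal.Quotient.mk I (F : MvPolynomial σ K) = 0 := hF
      exact Ideal.Quotient.eq_zero_iff_mem.1 this
    rw [LinearMap.mem_ker]
    funext p
    exact Ideal.Quotient.eq_zero_iff_mem.2 (hIJ p p.2 _ h1 F.2)
  have htop : LinearMap.range Φ = ⊤ := by
    rw [eq_top_iff]
    intro c _
    choose F hF using fun p : Y => Ideal.Quotient.mk_surjective (c p)
    choose G hG hFG using fun p : Y => taylor_unit (p : σ → K) k (q p) (hq1 p p.2) (F p)
    refine ⟨⟨∑ p : Y, q p ^ (k + 1) * G p, ?_⟩, ?_⟩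
    · refine Submodule.sum_mem _ fun p _ => ?_
      exact hV.mul (hV.pow_mem (hq p p.2) _) (hV.total_le hX k (hG p))
    · funext p'
      change Ideal.Quotient.mk (J p') (∑ p : Y, q p ^ (k + 1) * G p) = c p'
      rw [← hF p', eq_comm, Ideal.Quotient.eq, ← Finset.add_sum_erase _ _ (Finset.mem_univ p'),
        ← sub_sub]
      refine sub_mem (hJ p' p'.2 (hFG p')) ?_
      refine Ideal.sum_mem _ fun p hp => Ideal.mul_mem_right _ _ ?_
      refine hJ p' p'.2 (Ideal.pow_mem_pow ?_ _)
      rw [mem_m]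
      refine hq0 p p.2 p' p'.2 ?_
      intro hpp
      exact Finset.ne_of_mem_erase hp (Subtype.ext hpp.symm)
  have h1 := LinearMap.finrank_range_add_finrank_ker Φ
  have h2 := LinearMap.finrank_range_add_finrank_ker Ψ
  have h3 : LinearMap.range Ψ = (V N).map (Ideal.Quotient.mkₐ K I).toLinearMap := by
    rw [LinearMap.range_comp, Submodule.range_subtype]
  have h4 := Submodule.finrank_mono hker
  have h5 : finrank K (LinearMap.range Φ) = ∑ p ∈ Y, finrank K (MvPolynomial σ K ⧸ J p) := by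
    rw [htop, finrank_top, Module.finrank_pi_fintype]
    exact Finset.sum_coe_sort Y (fun p => finrank K (MvPolynomial σ K ⧸ J p))
  have h6 : finrank K (LinearMap.range Ψ) = hilbF V I N := by rw [h3]; rfl
  omega

/-- independent points with dual functions -/
theorem exists_dual (Y : Finset (σ → K)) (n : ℕ) :
    ∃ Y₁ ⊆ Y, Y₁.card = rkF V Y n ∧ ∃ q : (σ → K) → MvPolynomial σ K,
      ∀ p ∈ Y₁, q p ∈ V n ∧ eval p (q p) = 1 ∧
        ∀ p' ∈ Y₁, p' ≠ p → eval p' (q p) = 0 := by
  classical
  have hfinV := hV.fin n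
  let ev : (σ → K) → Module.Dual K (V n) := fun p =>
    ((MvPolynomial.aeval p : MvPolynomial σ K →ₐ[K] K).toLinearMap).domRestrict (V n)
  have hev : ∀ (p : σ → K) (F : V n), ev p F = eval p (F : MvPolynomial σ K) := by
    intro p F
    simp [ev, MvPolynomial.aeval_eq_eval]
  obtain ⟨κ, a, ha, hspan, hli⟩ := exists_linearIndependent' K (fun p : Y => ev p)
  have hκ : Finite κ := Finite.of_injective a ha
  have : Fintype κ := Fintype.ofFinite κ
  -- evaluation at the selected points is surjective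
  let Ev : V n →ₗ[K] (κ → K) := LinearMap.pi fun i => ev (a i)
  have hsurj : LinearMap.range Ev = ⊤ := by
    by_contra hne
    obtain ⟨f, hf0, hf⟩ := Submodule.exists_le_ker_of_lt_top _ (lt_top_iff_ne_top.2 hne)
    apply hf0
    have h1 : ∀ F : V n, ∑ i, f (Pi.single i 1) • ev (a i) F = 0 := by
      intro F
      have h2 : f (Ev F) = 0 := hf ⟨F, rfl⟩
      rw [← h2, pi_eq_sum_univ' (Ev F), map_sum]
      refine Finset.sum_congr rfl fun i _ => ?_
      rw [map_smul, smul_eq_mul, smul_eq_mul, mul_comm]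
      congr 2
    have h3 : ∑ i, f (Pi.single i 1) • ev (a i) = 0 := by
      ext F
      simpa using h1 F
    have h4 := Fintype.linearIndependent_iff.1 hli (fun i => f (Pi.single i 1)) h3
    refine LinearMap.pi_ext' fun i => ?_
    ext
    simpa using h4 i
  refine ⟨Finset.univ.image fun i => (a i : σ → K), ?_, ?_, ?_⟩
  · intro p hp
    obtain ⟨i, -, rfl⟩ := Finset.mem_image.1 hp
    exact (a i).2
  · have hinj : Function.Injective fun i => (a i : σ → K) := fun i j hij => ha (Subtype.ext hij)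
    rw [Finset.card_image_of_injective _ hinj, Finset.card_univ]
    -- kernels agree
    let EvY : V n →ₗ[K] (Y → K) := (resA Y).toLinearMap.domRestrict (V n)
    have hker : LinearMap.ker Ev = LinearMap.ker EvY := by
      ext F
      rw [LinearMap.mem_ker, LinearMap.mem_ker]
      constructor
      · intro hF
        ext p
        have hp : ev (p : σ → K) ∈ Submodule.span K (Set.range ((fun p : Y => ev p) ∘ a)) := by
          rw [hspan]
          exact Submodule.subset_span ⟨p, rfl⟩
        have key : ∀ φ ∈ Submodule.span K (Set.range ((fun p : Y => ev p) ∘ a)), φ F = 0 := by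
          intro φ hφ
          induction hφ using Submodule.span_induction with
          | mem x hx =>
            obtain ⟨i, rfl⟩ := hx
            exact congrFun hF i
          | zero => simp
          | add x y _ _ hx hy => simp [hx, hy]
          | smul c x _ hx => simp [hx]
        have h5 := key _ hp
        rw [hev] at h5
        show resA Y (F : MvPolynomial σ K) p = 0
        rw [resA_apply, h5]
      · intro hF
        ext i
        have h5 := congrFun hF (a i)
        have h6 : resA Y (F : MvPolynomial σ K) (a i) = 0 := h5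
        rw [resA_apply] at h6
        show ev (a i) F = 0
        rw [hev, h6]
    have h1 := LinearMap.finrank_range_add_finrank_ker Ev
    have h2 := LinearMap.finrank_range_add_finrank_ker EvY
    rw [hsurj, finrank_top, Module.finrank_fintype_fun_eq_card] at h1
    have h3 : LinearMap.range EvY = (V n).map (resA Y).toLinearMap :=
      LinearMap.range_domRestrict _ _
    rw [h3, ← hker] at h2
    unfold rkF
    omega
  · choose F hF using fun i : κ => (LinearMap.range_eq_top.1 hsurj) (Pi.single i 1)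
    refine ⟨fun p => if hp : ∃ i, (a i : σ → K) = p then (F hp.choose : MvPolynomial σ K) else 0,
      ?_⟩
    intro p hp
    obtain ⟨i, -, rfl⟩ := Finset.mem_image.1 hp
    have hex : ∃ j, (a j : σ → K) = a i := ⟨i, rfl⟩
    have hch : hex.choose = i := ha (Subtype.ext hex.choose_spec)
    simp only [dif_pos hex, hch]
    refine ⟨(F i).2, ?_, ?_⟩
    · rw [← hev]
      have := congrFun (hF i) i
      rw [Pi.single_eq_same] at this
      exact this
    · intro p' hp' hne
      obtain ⟨j, -, rfl⟩ := Finset.mem_image.1 hp'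
      rw [← hev]
      have := congrFun (hF i) j
      have hji : j ≠ i := fun hh => hne (by rw [hh])
      rw [Pi.single_eq_of_ne hji] at this
      exact this

/-- **[Lo]**: `J p` is the ideal of the `(k+1)`-jets at `p`; only the elements of `I` of level
`(k+1) T + k w₀` have to be in `J p`. -/
theorem lo {w₀ : ℕ} (hX : ∀ i, (X i : MvPolynomial σ K) ∈ V w₀)
    (I : Ideal (MvPolynomial σ K)) (Y : Finset (σ → K))
    (J : (σ → K) → Ideal (MvPolynomial σ K)) {T k e : ℕ}
    (hJ : ∀ p ∈ Y, m p ^ (k + 1) ≤ J p)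
    (hIJ : ∀ p ∈ Y, ∀ F ∈ I, F ∈ V ((k + 1) * T + k * w₀) → F ∈ J p)
    (hdim : ∀ p ∈ Y, (k + e).choose e ≤ Module.finrank K (MvPolynomial σ K ⧸ J p)) :
    rkF V Y T * (k + e).choose e ≤ hilbF V I ((k + 1) * T + k * w₀) := by
  obtain ⟨Y₁, hY, hcard, q, hq⟩ := hV.exists_dual Y T
  have h1 := hV.sep hX I Y₁ q J (T := T) (k := k) (fun p hp => (hq p hp).1)
    (fun p hp => (hq p hp).2.1) (fun p hp p' hp' hne => (hq p hp).2.2 p' hp' hne)
    (fun p hp => hJ p (hY hp)) (fun p hp => hIJ p (hY hp))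
  refine le_trans ?_ h1
  rw [← hcard, ← smul_eq_mul, ← Finset.sum_const]
  exact Finset.sum_le_sum fun p hp => hdim p (hY hp)

/-- the rank on `Z` is the Hilbert function of the vanishing ideal of `Z` -/
theorem hilbF_vanishing (Z : Finset (σ → K)) (n : ℕ) :
    hilbF V (RingHom.ker (resA Z : MvPolynomial σ K →ₐ[K] (Z → K))) n = rkF V Z n := by
  have hfin := hV.fin n
  have h1 := LinearMap.finrank_range_add_finrank_ker ((resA Z).toLinearMap.domRestrict (V n))
  have h2 := LinearMap.finrank_range_add_finrank_ker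
    ((Ideal.Quotient.mkₐ K (RingHom.ker (resA Z : MvPolynomial σ K →ₐ[K] (Z → K)))).toLinearMap.domRestrict (V n))
  have hker : LinearMap.ker ((resA Z).toLinearMap.domRestrict (V n)) = LinearMap.ker
    ((Ideal.Quotient.mkₐ K (RingHom.ker (resA Z : MvPolynomial σ K →ₐ[K] (Z → K)))).toLinearMap.domRestrict (V n)) := by
    ext F
    rw [LinearMap.mem_ker, LinearMap.mem_ker]
    change resA Z (F : MvPolynomial σ K) = 0 ↔ Ideal.Quotient.mk _ (F : MvPolynomial σ K) = 0
    rw [Ideal.Quotient.eq_zero_iff_mem, RingHom.mem_ker]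
  rw [LinearMap.range_domRestrict] at h1 h2
  unfold hilbF rkF
  rw [hker] at h1
  omega

/-- **[Lo] for a finite set**: `Z ⊇ Y`; every polynomial of level `(k+1) T + k w₀` vanishing on `Z`
is in `J p` for `p ∈ Y`. -/
theorem lo_set {w₀ : ℕ} (hX : ∀ i, (X i : MvPolynomial σ K) ∈ V w₀)
    (Z Y : Finset (σ → K)) (J : (σ → K) → Ideal (MvPolynomial σ K)) {T k e : ℕ}
    (hJ : ∀ p ∈ Y, m p ^ (k + 1) ≤ J p)
    (hIJ : ∀ p ∈ Y, ∀ F ∈ V ((k + 1) * T + k * w₀), (∀ z ∈ Z, eval z F = 0) → F ∈ J p)
    (hdim : ∀ p ∈ Y, (k + e).choose e ≤ Module.finrank K (MvPolynomial σ K ⧸ J p)) :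
    rkF V Y T * (k + e).choose e ≤ rkF V Z ((k + 1) * T + k * w₀) := by
  rw [← hV.hilbF_vanishing Z]
  refine hV.lo hX _ Y J hJ (fun p hp F hF hFV => hIJ p hp F hFV fun z hz => ?_) hdim
  have h1 : resA Z F = 0 := hF
  have h2 := congrFun h1 ⟨z, hz⟩
  rwa [resA_apply] at h2

/-- **(M)** multiplicities -/
theorem mult_sum_le {w₀ : ℕ} (hX : ∀ i, (X i : MvPolynomial σ K) ∈ V w₀)
    (I : Ideal (MvPolynomial σ K)) (Y : Finset (σ → K)) {T k : ℕ}
    (hY : rkF V Y T = Y.card) :
    ∑ p ∈ Y, Module.finrank K (MvPolynomial σ K ⧸ (I ⊔ m p ^ (k + 1))) ≤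
      hilbF V I ((k + 1) * T + k * w₀) := by
  obtain ⟨Y₁, hYY, hcard, q, hq⟩ := hV.exists_dual Y T
  have hYe : Y₁ = Y := Finset.eq_of_subset_of_card_le hYY (by rw [hcard, hY])
  subst hYe
  exact hV.sep hX I Y₁ q (fun p => I ⊔ m p ^ (k + 1)) (fun p hp => (hq p hp).1)
    (fun p hp => (hq p hp).2.1) (fun p hp p' hp' hne => (hq p hp).2.2 p' hp' hne)
    (fun p _ => le_sup_right) (fun p _ F hF _ => (le_sup_left : I ≤ _) hF)

end IsFilt

end Vale.Agent.P054.T2.H580
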