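import Vale.Agent.P054.T2.H580.Inst
import Vale.Agent.P054.T2.H794.Leaves
import Vale.Agent.P054.T2.H94.LeafUni

/-!
# P054 / T2: the leaf `LeafS n` of section B (systems and [GOOD] in the leaves)
-/

set_option linter.unusedSectionVars false

open MvPolynomial Module Finset

namespace Vale.Agent.P054.T2.H580

open H930 (germ grad Pt ptc edgePt)
open H686 (Crd leaf mu meet)
open H307 (van pts mem_van mem_pts van_mono IsUnif IsFam fib mem_fib fib_mono fib_subset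
  self_mem_fib FI Ed cA JA NN xF xL xH1 xH2 xT wB)
open H794 (AData ForAData LeafS)

/-- the uniform set of `AData` -/
theorem us_of_AData {n k β C₁ L K₀ q C k₀ i₀ i₁ Wg : ℕ} {E' : Finset (Ed n ℝ)} {v : FI × ℕ → ℕ}
    (h : AData n k β C₁ L K₀ q C k₀ i₀ i₁ Wg E' v) : US n ℝ k β C₁ L K₀ q E' v :=
  ⟨h.par, h.unif, h.ne⟩

/-- **(B-b) [LEAFDATA]**: the leaf `LeafS n` of section B -/
theorem leafS (n : ℕ) : LeafS n := by
  refine ⟨NN n * NN n + 2, 64, fun C hC q hq L K₀ => ⟨0, fun β _ k C₁ k₀ i₀ i₁ Wg E' v h => ?_⟩⟩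
  have hCpos : 1 ≤ C := by omega
  have hgeo := h.geo
  have hlong := h.long
  have hi : i₀ + (NN n * NN n + 2) ≤ Wg := by
    have h1 : i₀ ≤ i₁ := h.i₀_le hCpos
    have h2 : i₁ ≤ C * i₁ := Nat.le_mul_of_pos_left _ hCpos
    omega
  have hm : (k₀ + i₀) + NN n * NN n + 2 ≤ k₀ + Wg := by omega
  have hn : n ≤ NN n := by unfold NN; omega
  have hcard : E'.card ≤ 1 * E'.card := by omega
  have hL1 := h.pos1
  have hL2 := h.pos2
  constructor
  · obtain ⟨f, h1, h2, h3, h4, h5⟩ := H94.leaf_core h.par h.unif h.ne hn (p := Prod.fst)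
      (idx := fun i => (FI.L1, i)) h.isL1 (Nat.le_add_right k₀ Wg) h.hk
      (fun i h1 h2 => h.winL1 i h1 h2.le) (σ := n - v (FI.L1, k₀)) (by omega)
    obtain ⟨Y, hY, hYc, hg⟩ := h5 E' subset_rfl 1 64 hcard (by omega) (k₀ + i₀) hm
    exact ⟨f, h2, h3, h4, Y, hY, hYc, hg⟩
  · obtain ⟨f, h1, h2, h3, h4, h5⟩ := H94.leaf_core h.par h.unif h.ne hn (p := Prod.snd)
      (idx := fun i => (FI.L2, i)) h.isL2 (Nat.le_add_right k₀ Wg) h.hk
      (fun i h1 h2 => h.winL2 i h1 h2.le) (σ := n - v (FI.L2, k₀)) (by omega)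
    obtain ⟨Y, hY, hYc, hg⟩ := h5 E' subset_rfl 1 64 hcard (by omega) (k₀ + i₀) hm
    exact ⟨f, h2, h3, h4, Y, hY, hYc, hg⟩

end Vale.Agent.P054.T2.H580
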