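import Vale.Agent.P054.T2.H580.FiltDense
import Vale.Agent.P054.T2.H930.Jets
import Vale.Agent.P054.T2.H307.Sum

/-!
# P054 / T2: common systems ((SYS), extension form) and (UP) for an arbitrary filtration
-/

open MvPolynomial Module Finset

namespace Vale.Agent.P054.T2.H580

open H930 (germ grad germChain)

/-! ### common systems, pure linear algebra -/

section sys

variable {K P M ι : Type*} [Field K] [AddCommGroup P] [Module K P] [AddCommGroup M] [Module K M]

/-- avoid finitely many subspaces not containing `Q` -/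
theorem exists_avoid_sub [Infinite K] {α : Type*} (Q : Submodule K P) (s : Finset α)
    (N : α → Submodule K P) (h : ∀ i ∈ s, ¬ Q ≤ N i) : ∃ m ∈ Q, ∀ i ∈ s, m ∉ N i := by
  classical
  have hne : (⊤ : Submodule K Q) ∉ s.image (fun i => (N i).comap Q.subtype) := by
    intro htop
    obtain ⟨i, hi, hi'⟩ := Finset.mem_image.1 htop
    apply h i hi
    intro m hm
    have : (⟨m, hm⟩ : Q) ∈ (N i).comap Q.subtype := by rw [hi']; trivial
    exact this
  have h1 := Subspace.biUnion_ne_univ_of_top_notMem (k := K) (E := Q)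
    (s := s.image (fun i => (N i).comap Q.subtype)) hne
  obtain ⟨m, hm⟩ := (Set.ne_univ_iff_exists_notMem _).1 h1
  refine ⟨m.1, m.2, ?_⟩
  intro i hi hmi
  apply hm
  simp only [Set.mem_iUnion]
  exact ⟨(N i).comap Q.subtype, Finset.mem_image_of_mem _ hi, hmi⟩

/-- `κ_j = #{k < K' | v k ≤ j}` -/
def kap (K' : ℕ) (v : ℕ → ℕ) (j : ℕ) : ℕ := ((range K').filter (fun k => v k ≤ j)).card

theorem kap_le (K' : ℕ) (v : ℕ → ℕ) (j : ℕ) : kap K' v j ≤ K' :=
  (Finset.card_filter_le _ _).trans (by simp)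

theorem kap_le_of_lt (K' : ℕ) (v : ℕ → ℕ) (hv : ∀ k l : ℕ, k ≤ l → l < K' → v k ≤ v l)
    (j k : ℕ) (h : j < v k) : kap K' v j ≤ k := H307.count_le K' v hv j k h

/-- **(SYS), extension form.**  `G e` is the (possibly projected) gradient at the edge `e`,
`W k` the space of the polynomials of level `k` which vanish on the fibre.  If the rank of
`G e` on `W k` is at least `v k` for every `e ∈ A` and `k < K'`, a given first part `f₀` with
independent gradients can be extended to a system of `n ≤ v (K' - 1)` polynomials,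
the `j`-th new one in `W κ_j`. -/
theorem exists_sys_ext [Infinite K] [Module.Finite K M] (A : Finset ι) (G : ι → P →ₗ[K] M)
    (W : ℕ → Submodule K P)
    (K' : ℕ) (hK : 0 < K') (v : ℕ → ℕ) (hv : ∀ k l : ℕ, k ≤ l → l < K' → v k ≤ v l)
    (hgr : ∀ k < K', ∀ e ∈ A, v k ≤ finrank K ((W k).map (G e)))
    {c₀ : ℕ} (f₀ : Fin c₀ → P) (h₀ : ∀ e ∈ A, LinearIndependent K (fun j => G e (f₀ j)))
    (m : ℕ) (hm : c₀ + m ≤ v (K' - 1)) :
    ∃ f : Fin (c₀ + m) → P, (∀ j, f (Fin.castAdd m j) = f₀ j) ∧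
      (∀ j : Fin m, f (Fin.natAdd c₀ j) ∈ W (kap K' v (c₀ + j))) ∧
      ∀ e ∈ A, LinearIndependent K (fun j => G e (f j)) := by
  classical
  induction m with
  | zero =>
    exact ⟨f₀, fun j => rfl, fun j => j.elim0, h₀⟩
  | succ m ih =>
    obtain ⟨f, hf0, hf, hind⟩ := ih (by omega)
    set κ := kap K' v (c₀ + m) with hκ
    have hκ1 : κ ≤ K' - 1 := kap_le_of_lt K' v hv (c₀ + m) (K' - 1) (by omega)
    have hκ2 : κ < K' := by omega
    have hκ3 : c₀ + m < v κ := H307.lt_at_count K' v hv (c₀ + m) hκ2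
    obtain ⟨g, hg, hg'⟩ := exists_avoid_sub (W κ) A
      (fun e => (Submodule.span K (Set.range (fun j => G e (f j)))).comap (G e))
      (by
        intro e he hle
        have h1 : (W κ).map (G e) ≤ Submodule.span K (Set.range (fun j => G e (f j))) := by
          rw [Submodule.map_le_iff_le_comap]
          exact hle
        have h2 := Submodule.finrank_mono h1
        have h3 := hgr κ hκ2 e he
        rw [finrank_span_eq_card (hind e he), Fintype.card_fin] at h2
        omega)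
    refine ⟨(Fin.snoc f g : Fin (c₀ + m + 1) → P), ?_, ?_, ?_⟩
    · intro j
      have h1 : (Fin.castAdd (m + 1) j) = Fin.castSucc (Fin.castAdd m j) := rfl
      rw [h1, Fin.snoc_castSucc]
      exact hf0 j
    · intro j
      refine Fin.lastCases ?_ (fun j => ?_) j
      · have h1 : Fin.natAdd c₀ (Fin.last m) = Fin.last (c₀ + m) := rfl
        rw [h1, Fin.snoc_last]
        exact hg
      · have h1 : Fin.natAdd c₀ (Fin.castSucc j) = Fin.castSucc (Fin.natAdd c₀ j) := rfl
        rw [h1, Fin.snoc_castSucc]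
        exact hf j
    · intro e he
      have h1 : (fun j => G e ((Fin.snoc f g : Fin (c₀ + m + 1) → P) j)) =
          Fin.snoc (fun j => G e (f j)) (G e g) := by
        funext j
        refine Fin.lastCases ?_ (fun j => ?_) j
        · simp
        · simp
      have h2 : LinearIndependent K
          (fun j => G e ((Fin.snoc f g : Fin (c₀ + m + 1) → P) j)) := by
        rw [h1, linearIndependent_finSnoc]
        exact ⟨hind e he, hg' e he⟩
      exact h2

/-- **(SYS).** -/
theorem exists_sys [Infinite K] [Module.Finite K M] (A : Finset ι) (G : ι → P →ₗ[K] M)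
    (W : ℕ → Submodule K P)
    (K' : ℕ) (hK : 0 < K') (v : ℕ → ℕ) (hv : ∀ k l : ℕ, k ≤ l → l < K' → v k ≤ v l)
    (hgr : ∀ k < K', ∀ e ∈ A, v k ≤ finrank K ((W k).map (G e)))
    (m : ℕ) (hm : m ≤ v (K' - 1)) :
    ∃ f : Fin m → P, (∀ j : Fin m, f j ∈ W (kap K' v j)) ∧
      ∀ e ∈ A, LinearIndependent K (fun j => G e (f j)) := by
  obtain ⟨f, -, h1, h2⟩ := exists_sys_ext A G W K' hK v hv hgr (c₀ := 0) (fun j => j.elim0)
    (fun e _ => linearIndependent_empty_type) m (by omega)
  have hz : 0 + m = m := Nat.zero_add m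
  refine ⟨fun j => f (Fin.natAdd 0 j), fun j => ?_, fun e he => ?_⟩
  · have := h1 j
    rwa [Nat.zero_add] at this
  · exact (h2 e he).comp (Fin.natAdd 0) (Fin.natAdd_injective m 0)

end sys

/-! ### (UP) -/

variable {σ K : Type*} [Field K] [Fintype σ] [DecidableEq σ]
variable {V : ℕ → Submodule K (MvPolynomial σ K)}

/-- **(UP)**: finitely many germs of one system -/
theorem IsFilt.up (hV : IsFilt V) {ι : Type*} (x : ι → σ → K) (A : Finset ι) {c : ℕ}
    (f : Fin c → MvPolynomial σ K) (d : ℕ → ℕ) (hd1 : ∀ j < c, 1 ≤ d j)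
    (hd : ∀ j : Fin c, f j ∈ V (d j)) (hev : ∀ e ∈ A, ∀ j, eval (x e) (f j) = 0)
    (hind : ∀ e ∈ A, LinearIndependent K (fun j => grad (x e) (f j))) (n T : ℕ) :
    (T + 1) ^ c * hilbF V (⨅ e ∈ A, germ (x e) f) n ≤
      (∏ j ∈ range c, d j) * finrank K (V (n + c * T)) := by
  classical
  set g : ℕ → MvPolynomial σ K := fun j => if h : j < c then f ⟨j, h⟩ else 0 with hg
  have h := hV.hilbF_primes A (fun j e => germChain (x e) f j) c
    (fun j _ e he => H930.germChain_isPrime (hev e he) (hind e he) j)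
    (fun j _ e _ => H930.germChain_mono (x e) f (Nat.le_succ j))
    g
    (fun j hj e _ => by
      simp only [hg, dif_pos hj]
      exact H930.mem_germChain_succ (x e) f ⟨j, hj⟩)
    (fun j hj e he => by
      simp only [hg, dif_pos hj]
      exact H930.notMem_germChain (hev e he) (hind e he) ⟨j, hj⟩)
    d hd1
    (fun j hj => by
      simp only [hg, dif_pos hj]
      exact hd ⟨j, hj⟩)
    n T
  have h2 : (⨅ e ∈ A, germChain (x e) f c) = ⨅ e ∈ A, germ (x e) f := by
    refine iInf_congr fun e => iInf_congr fun _ => ?_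
    exact H930.germChain_top (x e) f le_rfl
  rw [← h2]
  exact h

/-- **(UP) for weighted degree, division free**: for `n ≥ w i`,
`(∏ w i) * hilbF (n) ≤ (c+2)^N * ∏ d j * n^(N - c)`. -/
theorem up_Vw {ι : Type*} (w : σ → ℕ) (hw : ∀ i, w i ≠ 0) (x : ι → σ → K) (A : Finset ι)
    {c : ℕ} (f : Fin c → MvPolynomial σ K) (d : ℕ → ℕ) (hd1 : ∀ j < c, 1 ≤ d j)
    (hd : ∀ j : Fin c, f j ∈ Vw K w (d j)) (hev : ∀ e ∈ A, ∀ j, eval (x e) (f j) = 0)
    (hind : ∀ e ∈ A, LinearIndependent K (fun j => grad (x e) (f j)))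
    (hc : c ≤ Fintype.card σ) (n : ℕ) (hn : ∀ i, w i ≤ n) (hn1 : 1 ≤ n) :
    (∏ i, w i) * hilbF (Vw K w) (⨅ e ∈ A, germ (x e) f) n ≤
      (c + 2) ^ Fintype.card σ * ((∏ j ∈ range c, d j) * n ^ (Fintype.card σ - c)) := by
  have h1 := (isFilt_Vw (k := K) w hw).up x A f d hd1 hd hev hind n n
  have h2 := finrank_Vw_le (k := K) w hw (n + c * n)
  have h3 : (∏ i, w i) * ∏ i, ((n + c * n) / w i + 1) ≤ ((c + 2) * n) ^ Fintype.card σ := by
    rw [← Finset.prod_mul_distrib]
    have h4 : ∀ i ∈ (univ : Finset σ), w i * ((n + c * n) / w i + 1) ≤ (c + 2) * n := by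
      intro i _
      rw [mul_add, mul_one]
      have h5 := Nat.mul_div_le (n + c * n) (w i)
      have h6 := hn i
      calc w i * ((n + c * n) / w i) + w i ≤ (n + c * n) + n := Nat.add_le_add h5 h6
        _ = (c + 2) * n := by ring
    calc ∏ i, w i * ((n + c * n) / w i + 1) ≤ ∏ _i : σ, (c + 2) * n :=
          Finset.prod_le_prod' h4
      _ = ((c + 2) * n) ^ Fintype.card σ := by simp [Finset.prod_const, Finset.card_univ]
  have h5 : (n + 1) ^ c * ((∏ i, w i) * hilbF (Vw K w) (⨅ e ∈ A, germ (x e) f) n) ≤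
      (∏ j ∈ range c, d j) * ((c + 2) * n) ^ Fintype.card σ := by
    calc (n + 1) ^ c * ((∏ i, w i) * hilbF (Vw K w) (⨅ e ∈ A, germ (x e) f) n)
        = (∏ i, w i) * ((n + 1) ^ c * hilbF (Vw K w) (⨅ e ∈ A, germ (x e) f) n) := by ring
      _ ≤ (∏ i, w i) * ((∏ j ∈ range c, d j) * finrank K (Vw K w (n + c * n))) :=
          Nat.mul_le_mul_left _ h1
      _ = (∏ j ∈ range c, d j) * ((∏ i, w i) * finrank K (Vw K w (n + c * n))) := by ring
      _ ≤ (∏ j ∈ range c, d j) * ((∏ i, w i) * ∏ i, ((n + c * n) / w i + 1)) :=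
          Nat.mul_le_mul_left _ (Nat.mul_le_mul_left _ h2)
      _ ≤ _ := Nat.mul_le_mul_left _ h3
  have h6 : n ^ c * ((∏ i, w i) * hilbF (Vw K w) (⨅ e ∈ A, germ (x e) f) n) ≤
      n ^ c * ((c + 2) ^ Fintype.card σ *
        ((∏ j ∈ range c, d j) * n ^ (Fintype.card σ - c))) := by
    calc n ^ c * ((∏ i, w i) * hilbF (Vw K w) (⨅ e ∈ A, germ (x e) f) n)
        ≤ (n + 1) ^ c * ((∏ i, w i) * hilbF (Vw K w) (⨅ e ∈ A, germ (x e) f) n) :=
          Nat.mul_le_mul_right _ (Nat.pow_le_pow_left (by omega) _)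
      _ ≤ (∏ j ∈ range c, d j) * ((c + 2) * n) ^ Fintype.card σ := h5
      _ = _ := by
          have h7 : n ^ Fintype.card σ = n ^ c * n ^ (Fintype.card σ - c) := by
            rw [← pow_add]; congr 1; omega
          rw [mul_pow, h7]; ring
  exact Nat.le_of_mul_le_mul_left h6 (Nat.pow_pos hn1)

end Vale.Agent.P054.T2.H580
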