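import Vale.Agent.P054.T2.H580.Win
import Vale.Agent.P054.T2.H307.UnifLo
import Vale.Agent.P054.T2.H930.Block

/-!
# P054 / T2: systems, lower bounds and [GOOD] over a uniform set of edges (seam A -> B)
-/

set_option linter.unusedSectionVars false

open MvPolynomial Module Finset

namespace Vale.Agent.P054.T2.H580

open H930 (germ)
open H307 (van pts mem_van mem_pts van_mono IsUnif IsFam gfr core core_subset core_anti core_zero
  fib mem_fib fib_mono fib_subset self_mem_fib gr gsp lo_core)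

/-- the numbers of the uniformisation: `N` bounds the numbers of variables, `q` the densities -/
structure Par (N k β C₁ L K₀ q nJ : ℕ) : Prop where
  hk : 0 < k
  hL : 0 < L
  hβ : k * (N + 2) + 1 ≤ β
  hC : β ≤ C₁ * (k + 1)
  hC1 : 1 ≤ C₁
  hq : q * (K₀ * (L * k) * nJ) ≤ β
  hconst : (2 * (N + 2)) ^ N * (C₁ ^ N * N.factorial) ^ (2 * K₀) ≤ β

namespace Par

variable {N k β C₁ L K₀ q nJ : ℕ} (h : Par N k β C₁ L K₀ q nJ)
include h

theorem beta_gt_one : 1 < β := by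
  have h1 := h.hβ
  have h2 := h.hk
  have h3 : 1 ≤ k * (N + 2) := Nat.mul_pos h2 (by omega)
  omega

theorem b_gt_one : 1 < β ^ L := Nat.one_lt_pow h.hL.ne' h.beta_gt_one

theorem hβ_le {M : ℕ} (hM : M ≤ N) : k * (M + 2) + 1 ≤ β :=
  le_trans (by have := Nat.mul_le_mul_left k (Nat.add_le_add_right hM 2); omega) h.hβ

theorem const_pos (M : ℕ) : 1 ≤ C₁ ^ M * M.factorial :=
  Nat.mul_pos (Nat.pow_pos h.hC1) (Nat.factorial_pos _)

theorem const_le {M : ℕ} (hM : M ≤ N) : C₁ ^ M * M.factorial ≤ C₁ ^ N * N.factorial :=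
  Nat.mul_le_mul (Nat.pow_le_pow_right h.hC1 hM) (Nat.factorial_le hM)

/-- all multiplicative constants together are at most `b` -/
theorem loss {M₁ M₂ M₃ K₁ K₂ : ℕ} (h1 : M₁ ≤ N) (h2 : M₂ ≤ N) (h3 : M₃ ≤ N)
    (hK1 : K₁ ≤ K₀) (hK2 : K₂ ≤ K₀) :
    (2 * (M₁ + 2)) ^ M₁ * (((C₁ ^ M₂ * M₂.factorial) ^ L) ^ K₁ *
      ((C₁ ^ M₃ * M₃.factorial) ^ L) ^ K₂) ≤ β ^ L := by
  set X := C₁ ^ N * N.factorial with hX
  have hX1 : 1 ≤ X := h.const_pos N
  have e1 : (2 * (M₁ + 2)) ^ M₁ ≤ ((2 * (N + 2)) ^ N) ^ L := by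
    calc (2 * (M₁ + 2)) ^ M₁ ≤ (2 * (N + 2)) ^ M₁ := Nat.pow_le_pow_left (by omega) _
      _ ≤ (2 * (N + 2)) ^ N := Nat.pow_le_pow_right (by omega) h1
      _ ≤ ((2 * (N + 2)) ^ N) ^ L := Nat.le_self_pow h.hL.ne' _
  have e2 : ((C₁ ^ M₂ * M₂.factorial) ^ L) ^ K₁ ≤ (X ^ L) ^ K₀ :=
    (Nat.pow_le_pow_left (Nat.pow_le_pow_left (h.const_le h2) _) _).trans
      (Nat.pow_le_pow_right (Nat.pow_pos hX1) hK1)
  have e3 : ((C₁ ^ M₃ * M₃.factorial) ^ L) ^ K₂ ≤ (X ^ L) ^ K₀ :=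
    (Nat.pow_le_pow_left (Nat.pow_le_pow_left (h.const_le h3) _) _).trans
      (Nat.pow_le_pow_right (Nat.pow_pos hX1) hK2)
  have e4 : (X ^ L) ^ K₀ * (X ^ L) ^ K₀ = (X ^ (2 * K₀)) ^ L := by
    rw [← pow_mul, ← pow_add, ← pow_mul]
    congr 1
    ring
  calc _ ≤ ((2 * (N + 2)) ^ N) ^ L * ((X ^ L) ^ K₀ * (X ^ L) ^ K₀) :=
        Nat.mul_le_mul e1 (Nat.mul_le_mul e2 e3)
    _ = ((2 * (N + 2)) ^ N * X ^ (2 * K₀)) ^ L := by rw [e4, ← mul_pow]
    _ ≤ β ^ L := Nat.pow_le_pow_left h.hconst _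

end Par

section

variable {ι κ K S : Type*} [Field K] [CharZero K] [Infinite K]
variable {c : κ → Finset ι → ι → ℕ} {J : Finset κ} {β : ℕ} {E' : Finset ι} {v : κ → ℕ}

theorem fib_eq {ι S : Type*} [DecidableEq S] (p : ι → S) (A : Finset ι) (s : S) :
    fib p A s = A.filter (fun a => p a = s) := by
  ext e
  rw [mem_fib, Finset.mem_filter]

theorem one_le_rkF {σ : Type*} [Finite σ] {V : ℕ → Submodule K (MvPolynomial σ K)}
    (hV : IsFilt V) {Y : Finset (σ → K)} (hY : Y.Nonempty) (n : ℕ) : 1 ≤ rkF V Y n := by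
  obtain ⟨z, hz⟩ := hY
  have hfin := hV.fin n
  have hfin' : Module.Finite K ((V n).map (H441.resA Y).toLinearMap) := inferInstance
  unfold rkF
  rw [Nat.one_le_iff_ne_zero, Ne, Submodule.finrank_eq_zero]
  intro hbot
  have h3 : (H441.resA Y).toLinearMap 1 ∈ (V n).map (H441.resA Y).toLinearMap :=
    Submodule.mem_map_of_mem (hV.mono (Nat.zero_le n) hV.one)
  rw [hbot, Submodule.mem_bot] at h3
  have h4 := congrFun h3 ⟨z, hz⟩
  have h5 : (H441.resA Y).toLinearMap (1 : MvPolynomial σ K) = 1 := map_one (H441.resA Y)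
  rw [h5] at h4
  exact one_ne_zero h4

variable {σ : Type*} [Fintype σ] [DecidableEq σ]

/-! ### values of the families -/

omit [CharZero K] [Infinite K] in
theorem fam_le_card (h : IsUnif c J β E' v) (hE : E'.Nonempty)
    {V : ℕ → Submodule K (MvPolynomial σ K)} {x : ι → σ → K} {p : ι → S} {a b : ℕ}
    {idx : ℕ → κ} {K' : ℕ} (hF : IsFam c J idx K' x p V a b) {j : ℕ} (hj : j ≤ K') :
    v (idx j) ≤ Fintype.card σ := by
  obtain ⟨e, he⟩ := hE
  have h1 := h.le (idx j) (hF j hj).1 E' (Finset.Subset.refl _) e he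
  rw [(hF j hj).2] at h1
  exact h1.trans (H307.gfr_le _ _ _ _ _ _)

/-! ### (1) systems -/

/-- **(SYS)** for the fibres of a family over a uniform set -/
theorem fam_sys (h : IsUnif c J β E' v) (hE : E'.Nonempty) (hβ : 1 < β)
    {V : ℕ → Submodule K (MvPolynomial σ K)} (hV : IsFilt V) {x : ι → σ → K} {p : ι → S}
    {a b : ℕ} (hb : 1 ≤ b) {idx : ℕ → κ} {K' : ℕ} (hF : IsFam c J idx K' x p V a b)
    (k₀ : ℕ) (hk₀ : k₀ ≤ K') (s : S) :
    ∃ f : Fin (v (idx k₀)) → MvPolynomial σ K,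
      (∀ j : Fin (v (idx k₀)), f j ∈ van x (fib p E' s)
        (V (a * b ^ kap (k₀ + 1) (fun j => v (idx j)) (j : ℕ)))) ∧
      ∀ e ∈ E', p e = s → LinearIndependent K (fun j => H930.grad (x e) (f j)) := by
  obtain ⟨f, hf, hind⟩ := exists_sys (K := K) (fib p E' s) (fun e => H307.grad (x e))
    (fun k => van x (fib p E' s) (V (a * b ^ k))) (k₀ + 1) (Nat.succ_pos _)
    (fun j => v (idx j))
    (fun k l hkl hl => h.fam_mono hE hβ hV.mono hb hF hkl (by omega))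
    (by
      intro k hk e he
      obtain ⟨he1, he2⟩ := mem_fib.1 he
      have h1 := h.le (idx k) (hF k (by omega)).1 E' (Finset.Subset.refl _) e he1
      rw [(hF k (by omega)).2] at h1
      unfold gfr at h1
      rw [he2] at h1
      exact h1)
    (v (idx k₀)) (by simp)
  exact ⟨f, hf, fun e he hpe => hind e (mem_fib.2 ⟨he, hpe⟩)⟩

/-! ### (2) lower bounds -/

/-- **lower bound for dense sets** -/
theorem fam_lower {N k C₁ L K₀ q : ℕ} (hP : Par N k β C₁ L K₀ q J.card)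
    {V : ℕ → Submodule K (MvPolynomial σ K)} (hV : IsFilt V)
    (hder : ∀ n i F, F ∈ V n → pderiv i F ∈ V n) {a : ℕ} (hX : ∀ i, X i ∈ V a)
    (hN : Fintype.card σ ≤ N) {x : ι → σ → K} {p : ι → S}
    {idx : ℕ → κ} {K' : ℕ} (hK' : K' ≤ K₀) (hF : IsFam c J idx K' x p V a (β ^ L))
    {A : Finset ι} {e : ι} (he : e ∈ core c J v A (K₀ * (L * k))) :
    (β ^ L) ^ (∑ j ∈ range K', (Fintype.card σ - v (idx j))) *
        rkF V (pts x (fib p (core c J v A (K₀ * (L * k))) (p e))) a ≤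
      (((C₁ ^ (Fintype.card σ) * (Fintype.card σ).factorial) ^ L) ^ K' *
        (β ^ L) ^ (Fintype.card σ * Fintype.card σ)) *
        rkF V (pts x (fib p A (p e))) (a * (β ^ L) ^ K') := by
  refine (lo_core hV hder hX k β C₁ L K₀ hP.hk (hP.hβ_le hN) hP.hC hP.hC1 hK' hF A he).trans ?_
  refine Nat.mul_le_mul_right _ (Nat.mul_le_mul_left _ ?_)
  refine Nat.pow_le_pow_right (by have := hP.b_gt_one; omega) (Nat.mul_le_mul_left _ ?_)
  omega

/-- the core of a dense set is dense -/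
theorem core_dense {N k C₁ L K₀ q : ℕ} (hP : Par N k β C₁ L K₀ q J.card)
    (h : IsUnif c J β E' v)
    (hmono : ∀ j ∈ J, ∀ A B : Finset ι, A ⊆ B → B ⊆ E' → ∀ e ∈ A, c j B e ≤ c j A e)
    {A : Finset ι} (hA : A ⊆ E') {r : ℕ} (hr : 2 * r ≤ q) (hd : E'.card < r * A.card) :
    E'.card < 2 * r * (core c J v A (K₀ * (L * k))).card := by
  have hβ0 : 0 < β := by have := hP.beta_gt_one; omega
  have h1 := h.card_core' hmono hA (K₀ * (L * k)) (2 * r)
    (le_trans (Nat.mul_le_mul_right _ hr) hP.hq) hβ0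
  have h2 : 2 * r * A.card = 2 * (r * A.card) := by ring
  omega

theorem core_nonempty {N k C₁ L K₀ q : ℕ} (hP : Par N k β C₁ L K₀ q J.card)
    (h : IsUnif c J β E' v)
    (hmono : ∀ j ∈ J, ∀ A B : Finset ι, A ⊆ B → B ⊆ E' → ∀ e ∈ A, c j B e ≤ c j A e)
    {A : Finset ι} (hA : A ⊆ E') {r : ℕ} (hr : r ≤ q) (hd : E'.card < r * A.card) :
    (core c J v A (K₀ * (L * k))).Nonempty := by
  have hβ0 : 0 < β := by have := hP.beta_gt_one; omega
  have h1 := h.card_core' hmono hA (K₀ * (L * k)) r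
    (le_trans (Nat.mul_le_mul_right _ hr) hP.hq) hβ0
  rw [← Finset.card_pos]
  by_contra hcon
  have h2 : (core c J v A (K₀ * (L * k))).card = 0 := by omega
  rw [h2] at h1
  omega

/-! ### (3) [GOOD] for the families with weights `1` -/

/-- **[GOOD]** for a family with weights `1` on a dense subset `A` (`|E'| ≤ r |A|`), with the
systems `f s` of the fibres of `E'`. -/
theorem fam_GOOD {N k C₁ L K₀ q : ℕ} (hP : Par N k β C₁ L K₀ q J.card)
    (h : IsUnif c J β E' v) (hE : E'.Nonempty)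
    (hmono : ∀ j ∈ J, ∀ A B : Finset ι, A ⊆ B → B ⊆ E' → ∀ e ∈ A, c j B e ≤ c j A e)
    (hN : Fintype.card σ ≤ N) {x : ι → σ → K} {p : ι → S}
    {idx : ℕ → κ} {K' : ℕ} (hK' : K' ≤ K₀)
    (hF : IsFam c J idx K' x p (restrictTotalDegree σ K) 1 (β ^ L))
    (k₀ k₁ : ℕ) (hk : k₀ ≤ k₁) (hk₁ : k₁ ≤ K')
    (hconst : ∀ k, k₀ ≤ k → k < k₁ → v (idx k) = v (idx k₀))
    (f : S → Fin (v (idx k₀)) → MvPolynomial σ K)
    (hf : ∀ s, ∀ j : Fin (v (idx k₀)), f s j ∈ van x (fib p E' s) (restrictTotalDegree σ K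
      ((β ^ L) ^ kap (k₀ + 1) (fun j => v (idx j)) (j : ℕ))))
    (hind : ∀ e ∈ E', LinearIndependent K (fun j => H930.grad (x e) (f (p e) j)))
    {A : Finset ι} (hA : A ⊆ E') {r β' : ℕ} (hr : E'.card ≤ r * A.card) (hrq : r * β' ≤ q)
    (m : ℕ) (hm : m + N * N + 2 ≤ k₁)
    (Y : Finset ι) (hYA : Y ⊆ A)
    (hY : ∀ e ∈ Y, ∃ F : MvPolynomial σ K, F.totalDegree ≤ (β ^ L) ^ m ∧
      (∀ a ∈ A, p a = p e → eval (x a) F = 0) ∧ F ∉ germ (x e) (f (p e))) :
    β' * Y.card ≤ A.card := by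
  classical
  have hb1 := hP.b_gt_one
  have hV := isFilt_total (k := K) (σ := σ)
  have hder : ∀ n (i : σ) (F : MvPolynomial σ K), F ∈ restrictTotalDegree σ K n →
      pderiv i F ∈ restrictTotalDegree σ K n := by
    intro n i F hF
    rw [← Vw_one_eq] at hF ⊢
    exact Vw_mono _ (by omega) (pderiv_mem_Vw _ hF i)
  have hX : ∀ i : σ, (X i : MvPolynomial σ K) ∈ restrictTotalDegree σ K 1 := by
    intro i
    rw [← Vw_one_eq]
    exact X_mem_Vw _ i
  have hFk : IsFam c J idx k₁ x p (restrictTotalDegree σ K) 1 (β ^ L) :=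
    fun j hj => hF j (hj.trans hk₁)
  refine fam_good p x A (β ^ L) hb1.le k₀ k₁ hk (fun j => v (idx j))
    (fun k l hkl hl => h.fam_mono hE hP.beta_gt_one hV.mono hb1.le hF hkl (by omega)) hconst
    (fam_le_card h hE hF (hk.trans hk₁)) f
    (fun s j => van_mono (fun e he => by
      obtain ⟨h1, h2⟩ := Finset.mem_filter.1 he
      exact mem_fib.2 ⟨hA h1, h2⟩) le_rfl (hf s j))
    (fun e he => hind e (hA he))
    (Λ := ((C₁ ^ (Fintype.card σ) * (Fintype.card σ).factorial) ^ L) ^ k₁ *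
        (β ^ L) ^ (Fintype.card σ * Fintype.card σ)) ?_ m (by omega) ?_ Y hYA hY
  · intro B hB hcard
    have hBd : E'.card < (r * β') * B.card := by
      rcases Nat.eq_zero_or_pos r with h0 | h0
      · exfalso
        rw [h0, zero_mul] at hr
        have := hE.card_pos
        omega
      · calc E'.card ≤ r * A.card := hr
          _ < r * (β' * B.card) := Nat.mul_lt_mul_of_pos_left hcard h0
          _ = (r * β') * B.card := by ring
    obtain ⟨e, he⟩ := core_nonempty hP h hmono (hB.trans hA) hrq hBd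
    refine ⟨e, core_subset _ _ he, ?_⟩
    have h1 := fam_lower hP hV hder hX hN (hk₁.trans hK') hFk he
    rw [one_mul, fib_eq p B (p e)] at h1
    refine le_trans ?_ h1
    refine Nat.le_mul_of_pos_right _ ?_
    exact one_le_rkF hV (H307.pts_nonempty ⟨e, self_mem_fib he⟩) _
  · have h1 := hP.loss hN hN (Nat.zero_le N) (hk₁.trans hK') (Nat.zero_le K₀)
    simp only [pow_zero, mul_one] at h1
    have h2 : Fintype.card σ * Fintype.card σ ≤ N * N := Nat.mul_le_mul hN hN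
    calc (2 * (Fintype.card σ + 2)) ^ Fintype.card σ *
          (((C₁ ^ (Fintype.card σ) * (Fintype.card σ).factorial) ^ L) ^ k₁ *
          (β ^ L) ^ (Fintype.card σ * Fintype.card σ))
        = ((2 * (Fintype.card σ + 2)) ^ Fintype.card σ *
          ((C₁ ^ (Fintype.card σ) * (Fintype.card σ).factorial) ^ L) ^ k₁) *
          (β ^ L) ^ (Fintype.card σ * Fintype.card σ) := by ring
      _ ≤ β ^ L * (β ^ L) ^ (Fintype.card σ * Fintype.card σ) := Nat.mul_le_mul_right _ h1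
      _ = (β ^ L) ^ (Fintype.card σ * Fintype.card σ + 1) := by ring
      _ < (β ^ L) ^ (k₁ - m) := Nat.pow_lt_pow_right hb1 (by omega)

end

end Vale.Agent.P054.T2.H580
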